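import Vale.Agent.P291.M.WX
import Vale.Agent.P291.H.StepB

set_option autoImplicit false
set_option linter.unusedSectionVars false

/-! Quadratic relations give elements of the cut ideal. -/

namespace Vale.Agent.P291.H.M

open MvPolynomial Vale.Agent.P291.G

variable (D : QData)

/-- the substitution `ħ ↦ 0` -/
noncomputable def z0 : S D (ZZ D) →ₐ[ℂ] S D (ZZ D) :=
  aeval (Sum.elim (fun b => xq D b) (Sum.elim (fun a => X (Sum.inr (Sum.inl a)))
    (Sum.elim (fun _ => 0) fun j => X (Sum.inr (Sum.inr (Sum.inr j))))))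

lemma Fwd_z0_xq (b : B D) : z0 D (xq D b) = xq D b := by
  rw [z0, xq, xx, aeval_X]; rfl

lemma Fwd_z0_hb : z0 D (hb D) = 0 := by
  rw [z0, hb, aeval_X]; rfl

lemma Fwd_z0_tv (a : D.A) : z0 D (tv D a) = tv D a := by
  rw [z0, tv, aeval_X]; rfl

lemma Fwd_z0_zv (i : D.I) (k : Fin (D.w i)) : z0 D (zv D i k) = zv D i k := by
  rw [z0, zv, aeval_X]; rfl

lemma z0_act (σ : W D) (f : S D (ZZ D)) :
    z0 D (act D (ZZ D) σ f) = act D (ZZ D) σ (z0 D f) := by
  have h : (z0 D).comp (act D (ZZ D) σ) = (act D (ZZ D) σ).comp (z0 D) := by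
    apply MvPolynomial.algHom_ext
    intro b
    rw [AlgHom.comp_apply, AlgHom.comp_apply, act, rename_X, z0, aeval_X, aeval_X]
    rcases b with b | (a | (u | j))
    · simp [xx, rename_X]
    · simp [rename_X]
    · simp
    · simp [rename_X]
  exact DFunLike.congr_fun h f

lemma spec_z0 (f : S D (ZZ D)) : spec D (z0 D f) = spec D f := by
  have h : (spec D).comp (z0 D) = spec D := by
    apply MvPolynomial.algHom_ext
    intro b
    rw [AlgHom.comp_apply, z0, aeval_X]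
    rcases b with b | (a | (u | j))
    · simp [xx]
    · simp
    · simp [spec]
    · simp
  exact DFunLike.congr_fun h f

lemma Fwd_z0_g0 (a b : B D) : z0 D (g0 D a b) = g0 D a b := by
  unfold g0
  split_ifs
  · rw [map_sub, Fwd_z0_xq, Fwd_z0_xq]
  · rw [map_one]

lemma Fwd_z0_g1 (a b : B D) : z0 D (g1 D a b) = g0 D a b := by
  unfold g0 g1
  split_ifs
  · rw [map_add, map_sub, Fwd_z0_xq, Fwd_z0_xq, Fwd_z0_hb, add_zero]
  · rw [map_one]

lemma Fwd_z0_hq (b c : B D) {s : S D (ZZ D)} (hs : z0 D s = 0) :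
    z0 D (hq D b c s) = hq D b c 0 := by
  rw [hq, hq, map_prod]
  refine Finset.prod_congr rfl fun a _ => ?_
  rw [map_add, map_add, map_sub, Fwd_z0_xq, Fwd_z0_xq, Fwd_z0_tv, hs]

lemma Fwd_z0_zq (b : B D) {s : S D (ZZ D)} (hs : z0 D s = 0) :
    z0 D (zq D b s) = zq D b 0 := by
  rw [zq, zq, map_prod]
  refine Finset.prod_congr rfl fun a _ => ?_
  rw [map_add, map_sub, Fwd_z0_xq, Fwd_z0_zv, hs]

lemma Fwd_z0_pw (p q : B D) (i j : Bool) : z0 D (pw D p q i j) =
    (if i = j then g0 D p q else hq D p q 0) * g0 D p q := by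
  have h0 : z0 D (-hb D) = 0 := by rw [map_neg, Fwd_z0_hb, neg_zero]
  cases i <;> cases j <;>
    simp [pw, Fwd_z0_g0, Fwd_z0_g1, Fwd_z0_hq D p q h0, Fwd_z0_hq D p q (map_zero (z0 D))]

open Classical in
lemma Fwd_dd (p : B D → B D → Prop) : dd D (ZZ D) p =
    ∏ b, ∏ c ∈ Finset.univ.erase b, if p b c then g0 D b c else 1 := by
  rw [dd]
  refine Finset.prod_congr rfl fun b _ => ?_
  rw [← Finset.mul_prod_erase Finset.univ _ (Finset.mem_univ b), if_neg fun h => h.1 rfl, one_mul]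
  refine Finset.prod_congr rfl fun c hc => ?_
  have hne : b ≠ c := (Finset.ne_of_mem_erase hc).symm
  unfold g0
  by_cases h1 : p b c
  · by_cases h2 : b.1 = c.1
    · rw [if_pos ⟨hne, h2, h1⟩, if_pos h1, if_pos h2]
    · rw [if_neg (fun h => h2 h.2.1), if_pos h1, if_neg h2]
  · rw [if_neg (fun h => h1 h.2.2), if_neg h1]

lemma Fwd_ddT : ddT D (ZZ D) = ∏ b, ∏ c ∈ Finset.univ.erase b, g0 D b c := by
  classical
  rw [ddT, Fwd_dd]
  simp only [if_true]

lemma z0_Om : z0 D (Om D Finset.univ) = ddT D (ZZ D) ^ 2 := by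
  rw [Om, map_prod, Fwd_ddT, sq, ← Finset.prod_mul_distrib]
  refine Finset.prod_congr rfl fun b _ => ?_
  rw [map_prod, ← Finset.prod_mul_distrib]
  refine Finset.prod_congr rfl fun c _ => ?_
  rw [map_mul, Fwd_z0_g0, Fwd_z0_g1]

open Classical in
lemma Fwd_cross (K : Finset (B D)) (f : B D → B D → S D (ZZ D)) :
    ∏ b, ∏ c ∈ Finset.univ.erase b, (if (b ∈ K ↔ c ∈ K) then 1 else f b c) =
      (∏ b ∈ K, ∏ c ∈ Kᶜ, f b c) * ∏ b ∈ Kᶜ, ∏ c ∈ K, f b c := by
  have h1 : ∀ b, ∏ c ∈ Finset.univ.erase b, (if (b ∈ K ↔ c ∈ K) then 1 else f b c) =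
      ∏ c, (if (b ∈ K ↔ c ∈ K) then 1 else f b c) := by
    intro b
    rw [← Finset.mul_prod_erase Finset.univ (fun c => if (b ∈ K ↔ c ∈ K) then 1 else f b c)
      (Finset.mem_univ b), if_pos Iff.rfl, one_mul]
  simp only [h1]
  rw [← Finset.prod_mul_prod_compl K]
  congr 1
  · refine Finset.prod_congr rfl fun b hb => ?_
    rw [← Finset.prod_mul_prod_compl K, Finset.prod_eq_one (s := K), one_mul]
    · refine Finset.prod_congr rfl fun c hc => ?_
      rw [if_neg]
      intro h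
      exact (Finset.mem_compl.1 hc) (h.1 hb)
    · intro c hc
      rw [if_pos]
      exact ⟨fun _ => hc, fun _ => hb⟩
  · refine Finset.prod_congr rfl fun b hb => ?_
    have hb' := Finset.mem_compl.1 hb
    rw [← Finset.prod_mul_prod_compl K, Finset.prod_eq_one (s := Kᶜ), mul_one]
    · refine Finset.prod_congr rfl fun c hc => ?_
      rw [if_neg]
      intro h
      exact hb' (h.2 hc)
    · intro c hc
      have hc' := Finset.mem_compl.1 hc
      rw [if_pos]
      exact ⟨fun h => absurd h hb', fun h => absurd h hc'⟩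

/-- with `p b c = (b ∈ K ↔ c ∈ K)`; the mixed pairs contribute `hq p q 0 * g0 p q` -/
lemma z0_ww (K : Finset (B D)) : z0 D (ww D Finset.univ K) =
    ddT D (ZZ D) * (dd D (ZZ D) fun b c => (b ∈ K ↔ c ∈ K)) * (e (wX D) K * e (wX D) Kᶜ) := by
  classical
  have h1 : e (wX D) K * e (wX D) Kᶜ = ∏ b, ∏ c ∈ Finset.univ.erase b,
      (if (b ∈ K ↔ c ∈ K) then 1 else hq D b c 0) := by
    rw [Fwd_cross, e, e, compl_compl]
    rfl
  rw [ww, map_prod, Fwd_ddT, Fwd_dd, h1, ← Finset.prod_mul_distrib, ← Finset.prod_mul_distrib]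
  refine Finset.prod_congr rfl fun b _ => ?_
  rw [map_prod, ← Finset.prod_mul_distrib, ← Finset.prod_mul_distrib]
  refine Finset.prod_congr rfl fun c _ => ?_
  rw [Fwd_z0_pw]
  by_cases h : b ∈ K ↔ c ∈ K
  · rw [if_pos h, if_pos h, if_pos (by rw [decide_eq_decide]; exact h), mul_one]
  · rw [if_neg h, if_neg h, if_neg (by rw [decide_eq_decide]; exact h), mul_one, mul_comm]

lemma Fwd_Term (d : Dat D) (K : Finset (B D)) :
    ∃ q ∈ cutI (wX D), z0 D (Term D 0 d ∅ ∅ K) = ddT D (ZZ D) * q := by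
  classical
  by_cases hK : K = ∅
  · refine ⟨0, Ideal.zero_mem _, ?_⟩
    have h1 : d.f (∅ ∪ K) = 0 := by
      apply d.hf.2
      rw [hK, Finset.union_empty, typ_empty]
      exact fun h => d.hn h.symm
    rw [Term]
    split_ifs
    · rw [h1, zero_mul, zero_mul, zero_mul, map_zero, mul_zero]
    · rw [h1, map_zero, mul_zero, zero_mul, zero_mul, map_zero, mul_zero]
  · have hlt : ¬ (∑ i, (0 : D.I → ℤ) i * d.n i < 0) := by simp
    rw [Term, if_neg hlt]
    have hc : ((∅ ∪ ∅ : Finset (B D))ᶜ \ K) = Kᶜ := by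
      ext b; simp
    have hu : (∅ ∪ ∅ : Finset (B D))ᶜ = Finset.univ := by
      ext b; simp
    rw [hc, hu, map_mul, z0_ww, map_mul, map_prod]
    have hz : ∏ k ∈ K, z0 D (zq D k (-hb D)) = zs (wX D) K := by
      rw [zs]
      refine Finset.prod_congr rfl fun k _ => ?_
      exact Fwd_z0_zq D k (by rw [map_neg, Fwd_z0_hb, neg_zero])
    rw [hz, compl_compl]
    refine ⟨z0 D (d.g (∅ ∪ K) * sh D (hb D) (∅ ∪ K) (d.f (∅ ∪ K))) *
      (dd D (ZZ D) fun b c => (b ∈ Kᶜ ↔ c ∈ Kᶜ)) *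
      (e (wX D) K * e (wX D) Kᶜ * zs (wX D) K), ?_, by ring⟩
    exact Ideal.mul_mem_left _ _ (Ideal.subset_span
      ⟨K, Finset.nonempty_iff_ne_empty.2 hK, rfl⟩)

/-- every term of `Num` with `D1 = D2 = ∅` is, for `ħ = 0`, in `ddT * cutI` (`K ≠ ∅` because
`d.n ≠ 0`; `ν = 0`, so the second case of `Term` applies, where
`z0 (ww univ (univ \ K)) = z0 (ww univ K)`) -/
lemma z0_Num (L : List (Dat D)) : ∃ q ∈ cutI (wX D), z0 D (Num D 0 L ∅ ∅) = ddT D (ZZ D) * q := by
  classical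
  induction L with
  | nil =>
    refine ⟨0, Ideal.zero_mem _, ?_⟩
    rw [Num_nil, map_zero, mul_zero]
  | cons d L ih =>
    obtain ⟨q, hq, h1⟩ := ih
    rw [Num_cons, map_add, h1]
    have h2 : ∀ s : Finset (Finset (B D)), ∃ q ∈ cutI (wX D),
        z0 D (∑ K ∈ s, Term D 0 d ∅ ∅ K) = ddT D (ZZ D) * q := by
      intro s
      induction s using Finset.induction_on with
      | empty => exact ⟨0, Ideal.zero_mem _, by rw [Finset.sum_empty, map_zero, mul_zero]⟩
      | insert K s hK ih =>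
        obtain ⟨q1, hq1, h3⟩ := ih
        obtain ⟨q2, hq2, h4⟩ := Fwd_Term D d K
        exact ⟨q2 + q1, Ideal.add_mem _ hq2 hq1, by
          rw [Finset.sum_insert hK, map_add, h3, h4, mul_add]⟩
    obtain ⟨q', hq', h3⟩ := h2 (∅ ∪ ∅ : Finset (B D))ᶜ.powerset
    refine ⟨q' + q, Ideal.add_mem _ hq' hq, ?_⟩
    rw [mul_add, ← h3]
    congr 2
    rw [Num]
    simp

/-- Proof: like `stepB` with `ν = 0` (which is not used in `classical`, `topdown`): there are `L`, `L'`
and an invariant `g` with `Num D 0 (L ++ L') ∅ ∅ = Om univ * g` and `spec g = r`. Then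
`z0 g * ddT ^ 2 = ddT * q`, cancel `ddT`. -/
theorem fwd {r : S D (Fin D.rk)} (h : LinRel (wF D) r) :
    ∃ g : S D (ZZ D), (∀ σ, act D (ZZ D) σ g = g) ∧ g * ddT D (ZZ D) ∈ cutI (wX D) ∧
      spec D g = r := by
  obtain ⟨L, hL⟩ := classical D 0 h
  obtain ⟨L', hL', h1⟩ := topdown D 0 L fun D1 D2 hd hc => by
    rw [hL D1 D2 hd, if_neg]
    rintro ⟨rfl, -⟩
    simp at hc
  have h2 : Om D (∅ ∪ ∅ : Finset (B D))ᶜ ∣ Num D 0 (L ++ L') ∅ ∅ := by
    refine Om_dvd_Num D 0 (L ++ L') (Finset.disjoint_empty_left _) fun a _ b _ hab _ => ?_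
    refine h1 _ _ ?_ ?_
    · rw [Finset.disjoint_left]
      intro c hc hc'
      simp only [Finset.mem_insert, Finset.notMem_empty, or_false] at hc hc'
      exact hab (hc'.symm.trans hc)
    · simp
  rw [Finset.empty_union, Finset.compl_empty] at h2
  obtain ⟨g, hg⟩ := h2
  have hOm : Om D (Finset.univ : Finset (B D)) ≠ 0 := fun h0 =>
    spec_Om_ne_zero D Finset.univ (by rw [h0, map_zero])
  refine ⟨z0 D g, fun σ => ?_, ?_, ?_⟩
  · rw [← z0_act]
    congr 1
    apply mul_left_cancel₀ hOm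
    have h3 := act_Num D 0 (L ++ L') σ ∅ ∅
    have h4 : mp D σ ∅ = ∅ := by rw [mp, Finset.map_empty]
    rw [h4, hg, map_mul, act_Om] at h3
    have h5 : mp D σ Finset.univ = Finset.univ := by
      ext b; rw [mem_mp']; simp
    rw [h5] at h3
    exact h3
  · obtain ⟨q, hq, h3⟩ := z0_Num D (L ++ L')
    rw [hg, map_mul, z0_Om] at h3
    have h4 : z0 D g * ddT D (ZZ D) = q := by
      apply mul_left_cancel₀ (ddT_ne_zero D (ZZ D))
      rw [← h3]
      ring
    rw [h4]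
    exact hq
  · rw [spec_z0]
    apply mul_right_cancel₀ (spec_Om_ne_zero D Finset.univ)
    rw [← map_mul, mul_comm, ← hg, Num_append, map_add, spec_Num_inv0 D 0 L' hL', add_zero,
      hL ∅ ∅ (Finset.disjoint_empty_left _), if_pos ⟨rfl, rfl⟩]

end Vale.Agent.P291.H.M
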