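import Vale.Agent.P291.M.WX
import Vale.Agent.P291.H.BLift

set_option autoImplicit false
set_option linter.unusedSectionVars false

/-! Specialization of the quadratic relations. -/

namespace Vale.Agent.P291.H.M

open MvPolynomial Vale.Agent.P291.G

variable (D : QData)

lemma spec_wX_h (b c : B D) : spec D ((wX D).h b c) = (wF D).h b c :=
  spec_hq D b c (map_zero (spec D))

lemma spec_wX_z (b : B D) : spec D ((wX D).z b) = (wF D).z b :=
  spec_zq D b (map_zero (spec D))

lemma spec_e (A : Finset (B D)) : spec D (e (wX D) A) = e (wF D) A := by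
  unfold e
  rw [map_prod]
  refine Finset.prod_congr rfl fun b _ => ?_
  rw [map_prod]
  exact Finset.prod_congr rfl fun c _ => spec_wX_h D b c

lemma spec_zs (A : Finset (B D)) : spec D (zs (wX D) A) = zs (wF D) A := by
  unfold zs
  rw [map_prod]
  exact Finset.prod_congr rfl fun b _ => spec_wX_z D b

/-- the specialization of an alternating family is alternating -/
lemma spec_AF {n : D.I → ℕ} {φ : Finset (B D) → S D (ZZ D)} (h : φ ∈ AF D (ZZ D) n) :
    (fun A => spec D (φ A)) ∈ AF D (Fin D.rk) n := by
  refine ⟨fun σ A => ?_, fun A hA => ?_⟩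
  · have h1 := congrArg (spec D) (h.1 σ A)
    rw [spec_act, map_mul, map_intCast] at h1
    exact h1
  · change spec D (φ A) = 0
    rw [h.2 A hA, map_zero]

/-- the specialization of a quadratic relation is a quadratic relation (`spec_act`, `bl_spec_del`,
`spec_hq`, `spec_zq`) -/
theorem linRel_spec {r : S D (ZZ D)} (h : LinRel (wX D) r) : LinRel (wF D) (spec D r) := by
  obtain ⟨m, n, φ, ψ, h1, h2⟩ := h
  refine ⟨m, n, fun j A => spec D (φ j A), fun j A => spec D (ψ j A), fun j => ?_,
    fun D1 D2 hD => ?_⟩
  · exact ⟨(h1 j).1, spec_AF D (h1 j).2.1, spec_AF D (h1 j).2.2⟩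
  · have h3 := congrArg (spec D) (h2 D1 D2 hD)
    rw [map_sum] at h3
    simp only [map_sum, map_mul, spec_e, spec_zs] at h3
    rw [h3]
    split_ifs with h4
    · rw [map_mul, map_pow, bl_spec_del]
    · rw [map_zero]

end Vale.Agent.P291.H.M
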