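import Vale.Agent.P291.M.LinR
import Vale.Agent.P291.M.Spec
import Vale.Agent.P291.M.Fwd
import Vale.Agent.P291.H.Main

set_option autoImplicit false
set_option linter.unusedSectionVars false

/-! The kernel of `φ_C`. -/

namespace Vale.Agent.P291.H.M

open MvPolynomial Vale.Agent.P291.G

variable (D : QData)

/-- values of the invariant `g` with `g · Δ` in the cut ideal -/
def kerJ {K : Type} [Field K] [Algebra ℂ K] (x : B D → K) (y : Fin D.rk → K) : Set K :=
  {z | ∃ g : S D (ZZ D), (∀ σ, act D (ZZ D) σ g = g) ∧ g * ddT D (ZZ D) ∈ cutI (wX D) ∧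
    spc D x y g = z}

variable {K L : Type} [Field K] [Algebra ℂ K] [CommRing L] [Algebra K L]
  (x : B D → K) (y : Fin D.rk → K) (u : Module.Basis (B D → ℤ) K L)

/-- the kernel of `φ_C` -/
theorem ker_iff (hxy : AlgebraicIndependent ℂ (Sum.elim x y))
    (hu : ∀ l l', u (l + l') = u l * u l')
    (ν : D.I → ℤ) (hν : ∀ l, Min D l → l ≠ 0 → wt D ν l ≠ 0) {r : K} (hr : r ∈ R D x y) :
    algebraMap K L r ∈ fixI D x y u ν ↔ r ∈ kerJ D x y := by
  constructor
  · intro h
    obtain ⟨s, rfl⟩ := (mem_R_iff D x y hxy r).1 hr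
    have h1 : LinRel (wF D) (s : P D) :=
      stepA D x y u hxy hu ν (fun σ => (mem_Ainv D).1 s.2 σ) h
    obtain ⟨g, h2, h3, h4⟩ := fwd D h1
    refine ⟨g, h2, h3, ?_⟩
    rw [← EV_spec, h4]
    rfl
  · rintro ⟨g, h2, h3, rfl⟩
    have h1 := linRel_spec D (linRel_of_cut (wX D) (lab_wX D) (nv_wX D) h2 h3)
    rw [← EV_spec]
    exact quad_fixI D x y u ν hν (quad_of_linRel D x y u hxy hu h1)

end Vale.Agent.P291.H.M
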