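import Vale.Agent.P291.M.WX
import Vale.Agent.P291.H.BMem

set_option autoImplicit false
set_option linter.unusedSectionVars false

/-! The cut ideal in terms of cocharacters. -/

namespace Vale.Agent.P291.H.M

open MvPolynomial Vale.Agent.P291.G

variable (D : QData)

/-- product of the weights of `N` which are nonzero on the cocharacter `l` -/
noncomputable def cw (l : B D → ℤ) : S D (ZZ D) :=
  (∏ a, ∏ r, ∏ s, if l ⟨D.tgt a, s⟩ - l ⟨D.src a, r⟩ = 0 then 1 else
      xq D ⟨D.tgt a, s⟩ - xq D ⟨D.src a, r⟩ + tv D a) *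
    ∏ i, ∏ r, ∏ k, if -l ⟨i, r⟩ = 0 then 1 else zv D i k - xq D ⟨i, r⟩

lemma cw_eq (l : B D → ℤ) : cw D l =
    (∏ p : B D, ∏ q : B D, if l q = l p then 1 else hq D p q 0) *
      ∏ b : B D, if l b = 0 then 1 else zq D b 0 := by
  rw [cw]
  congr 1
  · have h := BM_prod_arrows D (fun a p q => if l q = l p then 1 else
      (xq D q - xq D p + tv D a))
    have h1 : (∏ a, ∏ r, ∏ s, if l ⟨D.tgt a, s⟩ - l ⟨D.src a, r⟩ = 0 then 1 else
        xq D ⟨D.tgt a, s⟩ - xq D ⟨D.src a, r⟩ + tv D a) =
        ∏ a, ∏ r : Fin (D.v (D.src a)), ∏ s : Fin (D.v (D.tgt a)),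
          if l ⟨D.tgt a, s⟩ = l ⟨D.src a, r⟩ then 1 else
            xq D ⟨D.tgt a, s⟩ - xq D ⟨D.src a, r⟩ + tv D a := by
      refine Finset.prod_congr rfl fun a _ => Finset.prod_congr rfl fun r _ =>
        Finset.prod_congr rfl fun s _ => ?_
      exact if_congr sub_eq_zero rfl rfl
    rw [h1, ← h]
    refine Finset.prod_congr rfl fun p _ => Finset.prod_congr rfl fun q _ => ?_
    by_cases hl : l q = l p
    · rw [if_pos hl]
      exact Finset.prod_eq_one fun a _ => if_pos hl
    · rw [if_neg hl, hq]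
      refine Finset.prod_congr rfl fun a _ => ?_
      rw [if_neg hl, add_zero]
  · rw [Fintype.prod_sigma]
    refine Finset.prod_congr rfl fun i _ => Finset.prod_congr rfl fun r _ => ?_
    by_cases hl : l ⟨i, r⟩ = 0
    · rw [if_pos hl]
      exact Finset.prod_eq_one fun k _ => if_pos (by rw [hl, neg_zero])
    · rw [if_neg hl, zq]
      refine Finset.prod_congr rfl fun k _ => ?_
      rw [if_neg (fun h => hl (neg_eq_zero.1 h)), add_zero]

lemma cw_ind (N : Finset (B D)) :
    cw D (ind D N) = e (wX D) N * e (wX D) Nᶜ * zs (wX D) N := by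
  rw [cw_eq]
  congr 1
  · rw [e, e, compl_compl, ← Finset.prod_mul_prod_compl N]
    congr 1
    · refine Finset.prod_congr rfl fun p hp => ?_
      rw [← Finset.prod_mul_prod_compl N]
      rw [Finset.prod_eq_one fun q hq => ?_, one_mul]
      · refine Finset.prod_congr rfl fun q hq => ?_
        rw [Finset.mem_compl] at hq
        rw [if_neg]
        · rfl
        · rw [ind, ind, if_neg hq, if_pos hp]
          norm_num
      · rw [if_pos]
        rw [ind, ind, if_pos hq, if_pos hp]
    · refine Finset.prod_congr rfl fun p hp => ?_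
      rw [Finset.mem_compl] at hp
      rw [← Finset.prod_mul_prod_compl N]
      rw [Finset.prod_eq_one (s := Nᶜ) fun q hq => ?_, mul_one]
      · refine Finset.prod_congr rfl fun q hq => ?_
        rw [if_neg]
        · rfl
        · rw [ind, ind, if_pos hq, if_neg hp]
          norm_num
      · rw [Finset.mem_compl] at hq
        rw [if_pos]
        rw [ind, ind, if_neg hq, if_neg hp]
  · rw [zs, ← Finset.prod_mul_prod_compl N, Finset.prod_eq_one (s := Nᶜ) fun q hq => ?_, mul_one]
    · refine Finset.prod_congr rfl fun q hq => ?_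
      rw [if_neg]
      · rfl
      · rw [ind, if_pos hq]
        norm_num
    · rw [Finset.mem_compl] at hq
      rw [if_pos]
      rw [ind, if_neg hq]

lemma cw_dvd {l : B D → ℤ} (hl : l ≠ 0) : ∃ N : Finset (B D), N.Nonempty ∧
    e (wX D) N * e (wX D) Nᶜ * zs (wX D) N ∣ cw D l := by
  obtain ⟨b₀, hb⟩ : ∃ b, l b ≠ 0 := by
    by_contra h
    push Not at h
    exact hl (funext h)
  refine ⟨Finset.univ.filter fun b => l b = l b₀, ⟨b₀, by simp⟩, ?_⟩
  rw [← cw_ind, cw_eq, cw_eq]
  have hi : ∀ b, ind D (Finset.univ.filter fun b => l b = l b₀) b = if l b = l b₀ then 1 else 0 := by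
    intro b
    rw [ind]
    exact if_congr (by simp) rfl rfl
  refine mul_dvd_mul ?_ ?_
  · refine Finset.prod_dvd_prod_of_dvd _ _ fun p _ => Finset.prod_dvd_prod_of_dvd _ _ fun q _ => ?_
    rw [hi, hi]
    by_cases h : l q = l p
    · rw [if_pos h, if_pos (by rw [h])]
    · rw [if_neg h]
      split_ifs
      · exact one_dvd _
      · exact dvd_rfl
      all_goals first | exact one_dvd _ | exact dvd_rfl
  · refine Finset.prod_dvd_prod_of_dvd _ _ fun b _ => ?_
    rw [hi]
    by_cases h : l b = 0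
    · rw [if_pos h, if_pos]
      rw [if_neg]
      rw [h]
      exact fun h1 => hb h1.symm
    · rw [if_neg h]
      split_ifs
      · exact one_dvd _
      · exact dvd_rfl
      all_goals first | exact one_dvd _ | exact dvd_rfl

lemma cutI_eq : cutI (wX D) = Ideal.span {p | ∃ l : B D → ℤ, l ≠ 0 ∧ p = cw D l} := by
  apply le_antisymm
  · refine Ideal.span_le.2 ?_
    rintro _ ⟨N, ⟨b, hb⟩, rfl⟩
    refine Ideal.subset_span ⟨ind D N, fun h => ?_, (cw_ind D N).symm⟩
    have h1 := congrFun h b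
    rw [ind, if_pos hb] at h1
    exact one_ne_zero h1
  · refine Ideal.span_le.2 ?_
    rintro _ ⟨l, hl, rfl⟩
    obtain ⟨N, hN, h⟩ := cw_dvd D hl
    exact Ideal.mem_of_dvd _ h (Ideal.subset_span ⟨N, hN, rfl⟩)

/-- the product of the roots -/
lemma ddT_eq : ddT D (ZZ D) = ∏ i, ∏ r : Fin (D.v i), ∏ s : Fin (D.v i),
    if (((r : ℕ) : ℤ) - ((s : ℕ) : ℤ)) = 0 then 1 else xq D ⟨i, r⟩ - xq D ⟨i, s⟩ := by
  classical
  rw [ddT, dd, Fintype.prod_sigma]
  refine Finset.prod_congr rfl fun i _ => Finset.prod_congr rfl fun r _ => ?_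
  rw [Fintype.prod_sigma, Finset.prod_eq_single i]
  · refine Finset.prod_congr rfl fun s _ => ?_
    by_cases h : r = s
    · subst h
      rw [if_neg (fun h => h.1 rfl), if_pos (sub_self _)]
    · have hne : (⟨i, r⟩ : B D) ≠ ⟨i, s⟩ := fun h1 => h (eq_of_heq (Sigma.mk.inj h1).2)
      rw [if_pos ⟨hne, rfl, trivial⟩, if_neg]
      intro h1
      apply h
      apply Fin.ext
      have := sub_eq_zero.1 h1
      exact_mod_cast this
  · intro j _ hj
    refine Finset.prod_eq_one fun s _ => if_neg fun h => hj h.2.1.symm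
  · intro h
    exact absurd (Finset.mem_univ _) h

end Vale.Agent.P291.H.M
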