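import Vale.Agent.P291.M.Gen

set_option autoImplicit false
set_option linter.unusedSectionVars false

/-! Alternating families in terms of power sums. -/

namespace Vale.Agent.P291.H.M

open MvPolynomial Vale.Agent.P291.G

variable (D : QData) (Z : Type)

lemma AFform_evA_inl {m : ℕ} (A : Fin m → Finset (B D)) (t : Fin m) (i : D.I) (j : ℕ) :
    evA D Z A (X (Sum.inl (t, i, j))) = ps D Z (A t) i j := by
  rw [evA, aeval_X]
  rfl

lemma AFform_evA_tot {m : ℕ} (A : Fin m → Finset (B D)) (i : D.I) (j : ℕ) :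
    evA D Z A (X (Sum.inr (Sum.inl (i, j)))) = ps D Z Finset.univ i j := by
  rw [evA, aeval_X]
  rfl

lemma AFform_evA_flavor {m : ℕ} (A : Fin m → Finset (B D)) (z : Z) :
    evA D Z A (X (Sum.inr (Sum.inr z))) = X (Sum.inr z) := by
  rw [evA, aeval_X]
  rfl

lemma AFform_ps_compl (A : Finset (B D)) (i : D.I) (j : ℕ) :
    ps D Z Aᶜ i j = ps D Z Finset.univ i j - ps D Z A i j := by
  classical
  rw [ps, ps, ps, eq_sub_iff_add_eq]
  exact Finset.sum_compl_add_sum A _

lemma AFform_gA_le (A₀ : Finset (B D)) {f : S D Z}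
    (hf : f ∈ gA D Z fun b => decide (b ∈ A₀)) :
    ∃ Q : PP D Z 1, evA D Z (fun _ => A₀) Q = f := by
  have h1 : gA D Z (fun b => decide (b ∈ A₀)) ≤ (evA D Z (fun _ : Fin 1 => A₀)).range := by
    rw [gA, Algebra.adjoin_le_iff]
    rintro x (⟨⟨k, i, j⟩, rfl⟩ | ⟨z, rfl⟩)
    · cases k with
      | true =>
        have h2 : (Finset.univ.filter fun b => decide (b ∈ A₀) = true) = A₀ := by
          ext b
          simp
        refine ⟨X (Sum.inl (0, i, j)), ?_⟩
        change evA D Z (fun _ : Fin 1 => A₀) (X (Sum.inl (0, i, j))) =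
          ps D Z (Finset.univ.filter fun b => decide (b ∈ A₀) = true) i j
        rw [AFform_evA_inl, h2]
      | false =>
        have h2 : (Finset.univ.filter fun b => decide (b ∈ A₀) = false) = A₀ᶜ := by
          ext b
          simp
        refine ⟨X (Sum.inr (Sum.inl (i, j))) - X (Sum.inl (0, i, j)), ?_⟩
        change evA D Z (fun _ : Fin 1 => A₀)
          (X (Sum.inr (Sum.inl (i, j))) - X (Sum.inl (0, i, j))) =
          ps D Z (Finset.univ.filter fun b => decide (b ∈ A₀) = false) i j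
        rw [map_sub, AFform_evA_inl, AFform_evA_tot, h2, AFform_ps_compl]
    · exact ⟨X (Sum.inr (Sum.inr z)), AFform_evA_flavor D Z _ z⟩
  exact h1 hf

lemma AFform_sgn_ne (σ : W D) : (sgn D σ : S D Z) ≠ 0 := by
  intro h
  have h1 : (sgn D σ : S D Z) * (sgn D σ : S D Z) = 1 := by
    rw [← Int.cast_mul, sgn_sq, Int.cast_one]
  rw [h, mul_zero] at h1
  exact zero_ne_one h1

/-- Proof: if no `A` has type `n` take `Q = 0`. Otherwise fix `A₀` of type `n`. By `Dl_dvd`,
`φ A₀ = Dl A₀ * f`. If `mp σ A₀ = A₀`, then `act σ f = f` (`act_Dl`, `h.1`, `Dl_ne_zero`; the sign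
is `±1`). Apply `gen` with `P b = decide (b ∈ A₀)`: `f` is in the algebra generated by the
`ps A₀ i j`, `ps A₀ᶜ i j = ps univ i j - ps A₀ i j` and the flavors, which is contained in the range
of `evA fun _ => A₀`. So `f = evA (fun _ => A₀) Q`. For `A` of type `n` there is `σ` with
`mp σ A₀ = A` (`exists_mp` with `q = ∅`), and `sgn σ * φ A = act σ (φ A₀) =
act σ (Dl A₀) * act σ (evA (fun _ => A₀) Q) = sgn σ * Dl A * evA (fun _ => A) Q` (`act_evA`). -/
theorem AF_form {n : D.I → ℕ} {φ : Finset (B D) → S D Z} (h : φ ∈ AF D Z n) :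
    ∃ Q : PP D Z 1, ∀ A, typ D A = n → φ A = Dl D Z A * evA D Z (fun _ => A) Q := by
  classical
  by_cases hA₀ : ∃ A₀, typ D A₀ = n
  · obtain ⟨A₀, hA₀⟩ := hA₀
    obtain ⟨f, hf⟩ := Dl_dvd D Z h A₀
    have hinv : ∀ σ : W D, (∀ b, decide (perm D σ b ∈ A₀) = decide (b ∈ A₀)) →
        act D Z σ f = f := by
      intro σ hσ
      have h1 : mp D σ A₀ = A₀ := by
        ext b
        rw [mem_mp']
        have h2 := hσ ((perm D σ).symm b)
        rw [Equiv.apply_symm_apply, decide_eq_decide] at h2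
        exact h2.symm
      have h2 := h.1 σ A₀
      rw [h1, hf, map_mul, act_Dl, h1, mul_assoc] at h2
      exact mul_left_cancel₀ (Dl_ne_zero D Z A₀) (mul_left_cancel₀ (AFform_sgn_ne D Z σ) h2)
    obtain ⟨Q, hQ⟩ := AFform_gA_le D Z A₀ (gen D Z (fun b => decide (b ∈ A₀)) hinv)
    refine ⟨Q, fun A hA => ?_⟩
    obtain ⟨σ, hσ, -⟩ := exists_mp D (P := A₀) (q := ∅) (P' := A) (q' := ∅)
      (Finset.empty_subset _) (Finset.empty_subset _) (hA₀.trans hA.symm) rfl
    have h1 := h.1 σ A₀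
    rw [hf, map_mul, act_Dl, ← hQ, act_evA, hσ, mul_assoc] at h1
    exact (mul_left_cancel₀ (AFform_sgn_ne D Z σ) h1).symm
  · exact ⟨0, fun A hA => absurd ⟨A, hA⟩ hA₀⟩

open Classical in
/-- the converse (`act_Dl`, `act_evA`, `typ_mp`) -/
theorem AF_of (n : D.I → ℕ) (Q : PP D Z 1) :
    (fun A => if typ D A = n then Dl D Z A * evA D Z (fun _ => A) Q else 0) ∈ AF D Z n := by
  refine ⟨fun σ A => ?_, fun A hA => ?_⟩
  · simp only
    rw [typ_mp]
    by_cases hA : typ D A = n
    · rw [if_pos hA, if_pos hA, map_mul, act_Dl, act_evA, mul_assoc]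
    · rw [if_neg hA, if_neg hA, map_zero, mul_zero]
  · simp only
    rw [if_neg hA]

end Vale.Agent.P291.H.M
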