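import Vale.Agent.P291.M.MainJ
import Vale.Agent.P291.H.Surj

set_option autoImplicit false
set_option linter.unusedSectionVars false

/-! All `ν` for which `φ_C` is onto. -/

namespace Vale.Agent.P291.H.M

open MvPolynomial Vale.Agent.P291.G

variable (D : QData)

section
variable {K L : Type} [Field K] [Algebra ℂ K] [CommRing L] [Algebra K L]
  (x : B D → K) (y : Fin D.rk → K) (u : Module.Basis (B D → ℤ) K L)

lemma wt_add (ν : D.I → ℤ) (l l' : B D → ℤ) : wt D ν (l + l') = wt D ν l + wt D ν l' := by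
  rw [wt, wt, wt, ← Finset.sum_add_distrib]
  exact Finset.sum_congr rfl fun b _ => by rw [Pi.add_apply]; ring

/-- decomposition into homogeneous components -/
noncomputable def tau (ν : D.I → ℤ) : L →ₗ[K] AddMonoidAlgebra L ℤ :=
  u.constr K fun l => AddMonoidAlgebra.single (wt D ν l) (u l)

lemma tau_u (ν : D.I → ℤ) (l : B D → ℤ) :
    tau D u ν (u l) = AddMonoidAlgebra.single (wt D ν l) (u l) := by
  rw [tau, Module.Basis.constr_basis]

/-- homogeneous component -/
noncomputable def cmp (ν : D.I → ℤ) (k : ℤ) (a : L) : L := (tau D u ν a).coeff k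

variable (hu : ∀ l l', u (l + l') = u l * u l')

include hu in
lemma tau_mul (ν : D.I → ℤ) (a b : L) : tau D u ν (a * b) = tau D u ν a * tau D u ν b := by
  have h : (LinearMap.mul K L).compr₂ (tau D u ν) =
      (LinearMap.mul K (AddMonoidAlgebra L ℤ)).compl₁₂ (tau D u ν) (tau D u ν) := by
    refine u.ext fun l => u.ext fun l' => ?_
    rw [LinearMap.compr₂_apply, LinearMap.mul_apply', LinearMap.compl₁₂_apply,
      LinearMap.mul_apply', ← hu, tau_u, tau_u, tau_u, AddMonoidAlgebra.single_mul_single, wt_add,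
      hu]
  exact DFunLike.congr_fun (DFunLike.congr_fun h a) b

lemma cmp_add (ν : D.I → ℤ) (k : ℤ) (a b : L) :
    cmp D u ν k (a + b) = cmp D u ν k a + cmp D u ν k b := by
  simp [cmp]

lemma cmp_neg (ν : D.I → ℤ) (k : ℤ) (a : L) : cmp D u ν k (-a) = -cmp D u ν k a := by
  simp [cmp]

lemma cmp_zero (ν : D.I → ℤ) (k : ℤ) : cmp D u ν k (0 : L) = 0 := by
  simp [cmp]

lemma cmp_smul (ν : D.I → ℤ) (k : ℤ) (c : K) (a : L) : cmp D u ν k (c • a) = c • cmp D u ν k a := by
  simp [cmp]

lemma cmp_u (ν : D.I → ℤ) (k : ℤ) (l : B D → ℤ) :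
    cmp D u ν k (u l) = if wt D ν l = k then u l else 0 := by
  classical
  rw [cmp, tau_u, AddMonoidAlgebra.coeff_single, Finsupp.single_apply]

include hu in
/-- components of a product -/
lemma cmp_mul (ν : D.I → ℤ) (k : ℤ) (a b : L) :
    ∃ s t : Finset ℤ, cmp D u ν k (a * b) =
      ∑ i ∈ s, ∑ j ∈ t, if i + j = k then cmp D u ν i a * cmp D u ν j b else 0 := by
  classical
  refine ⟨(tau D u ν a).coeff.support, (tau D u ν b).coeff.support, ?_⟩
  rw [cmp, tau_mul D u hu, AddMonoidAlgebra.coeff_mul, Finsupp.sum]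
  rfl

lemma cmp_hom {ν : D.I → ℤ} {m : ℤ} {b : L} (hb : b ∈ Submodule.span K (u '' {l | wt D ν l = m})) :
    cmp D u ν m b = b := by
  induction hb using Submodule.span_induction with
  | mem b hb =>
    obtain ⟨l, hl, rfl⟩ := hb
    have hl' : wt D ν l = m := hl
    rw [cmp_u, if_pos hl']
  | zero => exact cmp_zero D u ν m
  | add a b _ _ ha hb => rw [cmp_add, ha, hb]
  | smul c a _ ha => rw [cmp_smul, ha]

/-- components stay homogeneous for another weight -/
lemma cmp_span {ν ν' : D.I → ℤ} {m : ℤ} {b : L}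
    (hb : b ∈ Submodule.span K (u '' {l | wt D ν' l = m})) (k : ℤ) :
    cmp D u ν k b ∈ Submodule.span K (u '' {l | wt D ν' l = m}) := by
  induction hb using Submodule.span_induction with
  | mem b hb =>
    obtain ⟨l, hl, rfl⟩ := hb
    rw [cmp_u]
    split_ifs with h
    · exact Submodule.subset_span ⟨l, hl, rfl⟩
    · exact Submodule.zero_mem _
  | zero => rw [cmp_zero]; exact Submodule.zero_mem _
  | add a b _ _ ha hb => rw [cmp_add]; exact Submodule.add_mem _ ha hb
  | smul c a _ ha => rw [cmp_smul]; exact Submodule.smul_mem _ _ ha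

include hu in
lemma cmp_algebraMap (ν : D.I → ℤ) (k : ℤ) (r : K) :
    cmp D u ν k (algebraMap K L r) = if 0 = k then algebraMap K L r else 0 := by
  have h1 : algebraMap K L r = r • u 0 := by
    have h0 : u 0 = (1 : L) := by
      have hz := hu 0 0
      rw [add_zero] at hz
      have h2 : (LinearMap.mulLeft K (u 0)) = (LinearMap.id : L →ₗ[K] L) := by
        refine u.ext fun l => ?_
        rw [LinearMap.mulLeft_apply, ← hu, zero_add, LinearMap.id_apply]
      have h3 := DFunLike.congr_fun h2 (1 : L)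
      rwa [LinearMap.mulLeft_apply, mul_one, LinearMap.id_apply] at h3
    rw [h0, Algebra.algebraMap_eq_smul_one]
  rw [h1, cmp_smul, cmp_u]
  have h2 : wt D ν 0 = 0 := by simp [wt]
  rw [h2]
  split_ifs
  · rfl
  · exact smul_zero _

include hu in
/-- `A_F` is graded by every `ν` -/
lemma cmp_coulomb (ν : D.I → ℤ) {a : L} (ha : a ∈ coulomb D x y u) :
    ∀ k, cmp D u ν k a ∈ coulomb D x y u := by
  induction ha using Subring.closure_induction with
  | mem a ha =>
    intro k
    rcases ha with ⟨r, hr, rfl⟩ | ⟨l, f, hl, h⟩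
    · rw [cmp_algebraMap D u hu]
      split_ifs
      · exact R_mem_coulomb D x y u hr
      · exact Subring.zero_mem _
    · have key : ∀ l' : B D → ℤ, mono D x y u l' f ∈ coulomb D x y u →
          cmp D u ν k (mono D x y u l' f) ∈ coulomb D x y u := by
        intro l' hl'
        by_cases hk : wt D ν l' = k
        · subst hk
          rw [cmp_hom D u (mono_mem_span D x y u ν l' f)]
          exact hl'
        · have h0 : cmp D u ν k (mono D x y u l' f) = 0 := by
            have : ∀ b ∈ Submodule.span K (u '' {l | wt D ν l = wt D ν l'}),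
                cmp D u ν k b = 0 := by
              intro b hb
              induction hb using Submodule.span_induction with
              | mem b hb =>
                obtain ⟨l, hl, rfl⟩ := hb
                have hl' : wt D ν l = wt D ν l' := hl
                rw [cmp_u, if_neg (by rw [hl']; exact hk)]
              | zero => exact cmp_zero D u ν k
              | add a b _ _ ha hb => rw [cmp_add, ha, hb, add_zero]
              | smul c a _ ha => rw [cmp_smul, ha, smul_zero]
            exact this _ (mono_mem_span D x y u ν l' f)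
          rw [h0]
          exact Subring.zero_mem _
      rcases h with rfl | rfl
      · exact key l (mono_mem_coulomb D x y u hl f)
      · exact key (-l) (mono_neg_mem_coulomb D x y u hl f)
  | zero => intro k; rw [cmp_zero]; exact Subring.zero_mem _
  | one =>
    intro k
    rw [← map_one (algebraMap K L), cmp_algebraMap D u hu]
    split_ifs
    · rw [map_one]; exact Subring.one_mem _
    · exact Subring.zero_mem _
  | add a b _ _ ha hb => intro k; rw [cmp_add]; exact Subring.add_mem _ (ha k) (hb k)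
  | neg a _ ha => intro k; rw [cmp_neg]; exact Subring.neg_mem _ (ha k)
  | mul a b _ _ ha hb =>
    intro k
    obtain ⟨s, t, h⟩ := cmp_mul D u hu ν k a b
    rw [h]
    refine Subring.sum_mem _ fun i _ => Subring.sum_mem _ fun j _ => ?_
    split_ifs
    · exact Subring.mul_mem _ (ha i) (hb j)
    · exact Subring.zero_mem _

include hu in
/-- the ideal `fixI ν'` is graded by every `ν` -/
lemma cmp_fixI (ν ν' : D.I → ℤ) {c : L} (hc : c ∈ fixI D x y u ν') :
    ∀ k, cmp D u ν k c ∈ fixI D x y u ν' := by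
  induction hc using AddSubgroup.closure_induction with
  | mem c hc =>
    intro k
    obtain ⟨a, ha, b, hb, m, hm, hbm, rfl⟩ := hc
    obtain ⟨s, t, h⟩ := cmp_mul D u hu ν k a b
    rw [h]
    refine AddSubgroup.sum_mem _ fun i _ => AddSubgroup.sum_mem _ fun j _ => ?_
    split_ifs
    · exact AddSubgroup.subset_closure ⟨_, cmp_coulomb D x y u hu ν ha i, _,
        cmp_coulomb D x y u hu ν hb j, m, hm, cmp_span D u hbm j, rfl⟩
    · exact AddSubgroup.zero_mem _
  | zero => intro k; rw [cmp_zero]; exact AddSubgroup.zero_mem _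
  | add a b _ _ ha hb => intro k; rw [cmp_add]; exact AddSubgroup.add_mem _ (ha k) (hb k)
  | neg a _ ha => intro k; rw [cmp_neg]; exact AddSubgroup.neg_mem _ (ha k)

include hu in
/-- if `φ_C` is onto for `ν`, then `fixI ν` contains all elements of charge `≠ 0` -/
lemma fixI_le (ν ν' : D.I → ℤ)
    (hs : ∀ a ∈ coulomb D x y u, ∃ r ∈ R D x y, a - algebraMap K L r ∈ fixI D x y u ν) :
    fixI D x y u ν' ≤ fixI D x y u ν := by
  refine (AddSubgroup.closure_le _).2 ?_
  rintro c ⟨a, ha, b, hb, m, hm, hbm, rfl⟩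
  refine fixI_mul D x y u ν ha ?_
  obtain ⟨r, hr, h⟩ := hs b hb
  have h1 := cmp_fixI D x y u hu ν' ν h m
  rw [sub_eq_add_neg, cmp_add, cmp_neg, cmp_hom D u hbm, cmp_algebraMap D u hu,
    if_neg (Ne.symm hm), neg_zero, add_zero] at h1
  exact h1

include hu in
/-- all `ν` with `φ_C` onto have the same fixed locus -/
theorem fixI_eq (ν ν' : D.I → ℤ)
    (hs : ∀ a ∈ coulomb D x y u, ∃ r ∈ R D x y, a - algebraMap K L r ∈ fixI D x y u ν)
    (hs' : ∀ a ∈ coulomb D x y u, ∃ r ∈ R D x y, a - algebraMap K L r ∈ fixI D x y u ν') :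
    fixI D x y u ν = fixI D x y u ν' :=
  le_antisymm (fixI_le D x y u hu ν' ν hs') (fixI_le D x y u hu ν ν' hs)

lemma wt_one_ne (l : B D → ℤ) (hl : Min D l) (h0 : l ≠ 0) : wt D (fun _ => 1) l ≠ 0 := by
  obtain ⟨b, hb⟩ := Function.ne_iff.1 h0
  have h1 : l b = 1 := (hl b).resolve_left hb
  have h2 : 0 < wt D (fun _ => 1) l := by
    rw [wt]
    refine Finset.sum_pos' (fun c _ => ?_) ⟨b, Finset.mem_univ b, ?_⟩
    · rcases hl c with h | h <;> rw [h] <;> norm_num
    · rw [h1]; norm_num
  exact h2.ne'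

include hu in
/-- `ker φ_C` for every `ν` with `φ_C` onto -/
theorem ker_iff_of_surj (hxy : AlgebraicIndependent ℂ (Sum.elim x y)) (ν : D.I → ℤ)
    (hs : ∀ a ∈ coulomb D x y u, ∃ r ∈ R D x y, a - algebraMap K L r ∈ fixI D x y u ν)
    {r : K} (hr : r ∈ R D x y) :
    algebraMap K L r ∈ fixI D x y u ν ↔ r ∈ kerJ D x y := by
  rw [fixI_eq D x y u hu ν (fun _ => 1) hs
    (fun a ha => surj D x y u hu _ (wt_one_ne D) ha)]
  exact ker_iff D x y u hxy hu _ (wt_one_ne D) hr

end

end Vale.Agent.P291.H.M
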