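import Vale.Agent.P291.M.Defs

set_option autoImplicit false
set_option linter.unusedSectionVars false

/-! Basic lemmas. -/

namespace Vale.Agent.P291.H.M

open MvPolynomial Vale.Agent.P291.G

section
variable (D : QData) (Z : Type)

lemma mem_fb {m : ℕ} (g : B D → Fin m) (t : Fin m) (b : B D) : b ∈ fb D g t ↔ g b = t := by
  simp [fb]

/-- a colour preserving bijection is given by an element of the Weyl group -/
lemma exists_W (f : B D → B D) (hf : Function.Injective f) (hc : ∀ b, (f b).1 = b.1) :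
    ∃ σ : W D, ∀ b, perm D σ b = f b := by
  have h1 : ∀ (i : D.I) (r : Fin (D.v i)), ∃ s : Fin (D.v i), f ⟨i, r⟩ = ⟨i, s⟩ := by
    intro i r
    have h2 := hc ⟨i, r⟩
    rcases h : f ⟨i, r⟩ with ⟨j, s⟩
    rw [h] at h2
    obtain rfl : j = i := h2
    exact ⟨s, rfl⟩
  choose s hs using h1
  have h2 : ∀ i, Function.Injective (s i) := by
    intro i r r' h
    have h3 : f ⟨i, r⟩ = f ⟨i, r'⟩ := by rw [hs, hs, h]
    have h4 := hf h3
    simpa using h4
  refine ⟨fun i => Equiv.ofBijective (s i) ⟨h2 i, Finite.surjective_of_injective (h2 i)⟩, ?_⟩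
  rintro ⟨i, r⟩
  rw [hs]
  rfl

lemma act_inr (σ : W D) (z : Z) : act D Z σ (X (Sum.inr z)) = X (Sum.inr z) := by
  rw [act, rename_X]
  rfl

lemma act_ps (σ : W D) (A : Finset (B D)) (i : D.I) (j : ℕ) :
    act D Z σ (ps D Z A i j) = ps D Z (mp D σ A) i j := by
  rw [ps, ps, mp, Finset.sum_map, map_sum]
  refine Finset.sum_congr rfl fun b _ => ?_
  rw [apply_ite (act D Z σ), map_pow, act_xx, map_zero]
  rfl

lemma mp_univ' (σ : W D) : mp D σ Finset.univ = Finset.univ := by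
  ext b
  rw [mem_mp']
  exact ⟨fun _ => Finset.mem_univ _, fun _ => Finset.mem_univ _⟩

lemma act_evA {m : ℕ} (σ : W D) (A : Fin m → Finset (B D)) (Q : PP D Z m) :
    act D Z σ (evA D Z A Q) = evA D Z (fun t => mp D σ (A t)) Q := by
  have h : (act D Z σ).comp (evA D Z A) = evA D Z (fun t => mp D σ (A t)) := by
    apply MvPolynomial.algHom_ext
    intro p
    rw [AlgHom.comp_apply, evA, aeval_X, evA, aeval_X]
    rcases p with p | p | p
    · exact act_ps D Z σ _ _ _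
    · refine (act_ps D Z σ _ _ _).trans ?_
      rw [mp_univ']
      rfl
    · exact act_inr D Z σ _
  exact DFunLike.congr_fun h Q

lemma fb_perm {m : ℕ} (σ : W D) (g : B D → Fin m) (t : Fin m) :
    fb D (g ∘ (perm D σ).symm) t = mp D σ (fb D g t) := by
  ext b
  rw [mem_fb, mem_mp', mem_fb]
  rfl

lemma Basic_act_dd (σ : W D) (p : B D → B D → Prop) :
    act D Z σ (dd D Z p) = dd D Z fun b c => p ((perm D σ).symm b) ((perm D σ).symm c) := by
  classical
  rw [dd, dd, map_prod]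
  refine Fintype.prod_equiv (perm D σ) _ _ fun b => ?_
  rw [map_prod]
  refine Fintype.prod_equiv (perm D σ) _ _ fun c => ?_
  rw [apply_ite (act D Z σ), map_sub, act_xx, act_xx, map_one]
  refine if_congr ?_ rfl rfl
  rw [Equiv.symm_apply_apply, Equiv.symm_apply_apply]
  exact and_congr (perm D σ).injective.ne_iff.symm Iff.rfl

lemma act_RR {m : ℕ} (σ : W D) (g : B D → Fin m) :
    act D Z σ (RR D Z g) = RR D Z (g ∘ (perm D σ).symm) := by
  rw [RR, Basic_act_dd]
  rfl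

lemma act_ddT (σ : W D) : act D Z σ (ddT D Z) = ddT D Z := by
  rw [ddT, Basic_act_dd]

lemma dd_ne_zero (p : B D → B D → Prop) : dd D Z p ≠ 0 := by
  rw [dd]
  refine Finset.prod_ne_zero_iff.2 fun b _ => Finset.prod_ne_zero_iff.2 fun c _ => ?_
  split_ifs with h
  · exact vdm_sub_ne D Z h.1
  · exact one_ne_zero

lemma ddT_ne_zero : ddT D Z ≠ 0 := dd_ne_zero D Z _

lemma Basic_card {m : ℕ} (f : B D → Fin m) (i : D.I) (t : Fin m) :
    Fintype.card {r : Fin (D.v i) // f ⟨i, r⟩ = t} = typ D (fb D f t) i := by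
  rw [← card_fib, Fintype.card_subtype]
  congr 1
  ext r
  rw [mem_fib, mem_fb, Finset.mem_filter]
  exact ⟨fun h => h.2, fun h => ⟨Finset.mem_univ _, h⟩⟩

/-- colourings of the same type are conjugate -/
lemma exists_conj {m : ℕ} (g g₀ : B D → Fin m)
    (h : ∀ t, typ D (fb D g t) = typ D (fb D g₀ t)) : ∃ τ : W D, g = g₀ ∘ (perm D τ).symm := by
  have e : ∀ (i : D.I) (t : Fin m), Nonempty ({r : Fin (D.v i) // g₀ ⟨i, r⟩ = t} ≃
      {r : Fin (D.v i) // g ⟨i, r⟩ = t}) := fun i t =>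
    Fintype.card_eq.1 (by rw [Basic_card, Basic_card, h])
  let τ : W D := fun i => Equiv.ofFiberEquiv (f := fun r => g₀ ⟨i, r⟩) (g := fun r => g ⟨i, r⟩)
    fun t => (e i t).some
  have hτ : ∀ b, g (perm D τ b) = g₀ b := by
    rintro ⟨i, r⟩
    exact Equiv.ofFiberEquiv_map (f := fun r => g₀ ⟨i, r⟩) (g := fun r => g ⟨i, r⟩)
      (fun t => (e i t).some) r
  refine ⟨τ, ?_⟩
  funext b
  have h2 := hτ ((perm D τ).symm b)
  rwa [Equiv.apply_symm_apply] at h2

lemma kp_act (ι : B D → B D) (σ : W D) (h : ∀ b, ι (perm D σ b) = ι b) (f : S D Z) :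
    kp D Z ι (act D Z σ f) = kp D Z ι f := by
  rw [kp, act, rename_rename]
  congr 2
  funext b
  rcases b with b | b
  · exact congrArg Sum.inl (h b)
  · rfl

end

section
variable {D : QData} {Z : Type} (w : Wts D Z)

lemma act_WW (ε : ℕ → ℕ) {m : ℕ} (σ : W D) (g : B D → Fin m) :
    act D Z σ (WW w ε g) = WW w ε (g ∘ (perm D σ).symm) := by
  rw [WW, WW, map_prod]
  refine Finset.prod_congr rfl fun t _ => ?_
  rw [map_mul, map_pow, act_e, act_zs, fb_perm]

lemma XQ_add (ε : ℕ → ℕ) {m : ℕ} (n : ℕ → D.I → ℕ) (Q Q' : PP D Z m) :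
    XQ w ε n (Q + Q') = XQ w ε n Q + XQ w ε n Q' := by
  rw [XQ, XQ, XQ, ← Finset.sum_add_distrib]
  refine Finset.sum_congr rfl fun A _ => ?_
  split_ifs with h
  · rw [map_add, add_mul, AddMonoidAlgebra.single_add]
  · rw [add_zero]

lemma XQ_sub (ε : ℕ → ℕ) {m : ℕ} (n : ℕ → D.I → ℕ) (Q Q' : PP D Z m) :
    XQ w ε n (Q - Q') = XQ w ε n Q - XQ w ε n Q' :=
  eq_sub_of_add_eq (by rw [← XQ_add, sub_add_cancel])

/-- `XQ` only depends on the values of `Q` -/
lemma XQ_congr (ε : ℕ → ℕ) {m : ℕ} (n : ℕ → D.I → ℕ) (Q Q' : PP D Z m)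
    (h : ∀ A : Fin m → Finset (B D), (∀ t, typ D (A t) = n t) → evA D Z A Q = evA D Z A Q') :
    XQ w ε n Q = XQ w ε n Q' := by
  rw [XQ, XQ]
  refine Finset.sum_congr rfl fun A _ => ?_
  split_ifs with hA
  · rw [h A hA]
  · rfl

end

end Vale.Agent.P291.H.M
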