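import Vale.Agent.P291.H.Desc
import Vale.Agent.P291.H.Extract

set_option autoImplicit false
set_option linter.unusedSectionVars false

/-! Definitions for the theorem: if `r` is invariant and `r · Δ` is in the cut ideal, then `r`
satisfies a quadratic relation. -/

namespace Vale.Agent.P291.H.M

open MvPolynomial Vale.Agent.P291.G

section basic
variable (D : QData) (Z : Type)

open Classical in
/-- product of the differences of the ordered pairs of distinct marks of the same colour with
the property `p` -/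
noncomputable def dd (p : B D → B D → Prop) : S D Z :=
  ∏ b, ∏ c, if b ≠ c ∧ b.1 = c.1 ∧ p b c then xx D Z b - xx D Z c else 1

/-- `Δ`: product of all differences of ordered pairs of distinct marks of the same colour -/
noncomputable def ddT : S D Z := dd D Z fun _ _ => True

/-- power sum of the marks of `A` of colour `i` -/
noncomputable def ps (A : Finset (B D)) (i : D.I) (j : ℕ) : S D Z :=
  ∑ b ∈ A, if b.1 = i then xx D Z b ^ j else 0

/-- fibre of a colouring -/
def fb {m : ℕ} (g : B D → Fin m) (t : Fin m) : Finset (B D) :=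
  Finset.univ.filter fun b => g b = t

/-- polynomials in the power sums of `m` slots, the power sums of all marks, the flavors -/
abbrev PP (m : ℕ) : Type := MvPolynomial ((Fin m × D.I × ℕ) ⊕ ((D.I × ℕ) ⊕ Z)) ℂ

/-- evaluation at a tuple of subsets -/
noncomputable def evA {m : ℕ} (A : Fin m → Finset (B D)) : PP D Z m →ₐ[ℂ] S D Z :=
  aeval (Sum.elim (fun p => ps D Z (A p.1) p.2.1 p.2.2)
    (Sum.elim (fun p => ps D Z Finset.univ p.1 p.2) fun z => X (Sum.inr z)))

/-- product of the internal differences of the fibres of a colouring -/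
noncomputable def RR {m : ℕ} (g : B D → Fin m) : S D Z := dd D Z fun b c => g b = g c

/-- substitution `x b ↦ x (ι b)` -/
noncomputable def kp (ι : B D → B D) : S D Z →ₐ[ℂ] S D Z := rename (Sum.map ι id)

/-- replace the power sums of all marks by the sums of the power sums of the slots -/
noncomputable def th (m : ℕ) : PP D Z m →ₐ[ℂ] PP D Z m :=
  aeval (Sum.elim (fun p => X (Sum.inl p))
    (Sum.elim (fun p => ∑ t : Fin m, X (Sum.inl (t, p.1, p.2))) fun z => X (Sum.inr (Sum.inr z))))

end basic

section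
variable {D : QData} {Z : Type} (w : Wts D Z)

/-- the weights do not vanish when marks of the same colour are identified -/
structure NV : Prop where
  h_ne : ∀ ι : B D → B D, (∀ b, (ι b).1 = b.1) → ∀ b c, b ≠ c → kp D Z ι (w.h b c) ≠ 0
  z_ne : ∀ ι : B D → B D, (∀ b, (ι b).1 = b.1) → ∀ b, kp D Z ι (w.z b) ≠ 0

open Classical in
/-- the sum of products of slots of types `n` given by `Q` -/
noncomputable def XQ (ε : ℕ → ℕ) {m : ℕ} (n : ℕ → D.I → ℕ) (Q : PP D Z m) :
    AddMonoidAlgebra (S D Z) (B D → ℤ) :=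
  ∑ A : Fin m → Finset (B D), if ∀ t : Fin m, typ D (A t) = n t then
    AddMonoidAlgebra.single (∑ t, ind D (A t)) (evA D Z A Q *
      ∏ t : Fin m, (Dl D Z (A t) * (e w (A t) * zs w (A t) ^ ε t))) else 0

/-- product of the weights of a colouring -/
noncomputable def WW (ε : ℕ → ℕ) {m : ℕ} (g : B D → Fin m) : S D Z :=
  ∏ t : Fin m, (e w (fb D g t) * zs w (fb D g t) ^ ε t)

open Classical in
/-- reduced diagonal coefficient -/
noncomputable def ee (ε : ℕ → ℕ) {m : ℕ} (n : ℕ → D.I → ℕ) (Q : PP D Z m) : S D Z :=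
  ∑ g : B D → Fin m, if ∀ t : Fin m, typ D (fb D g t) = n t then
    evA D Z (fb D g) Q * (WW w ε g * RR D Z g) else 0

/-- all sequences of types of total `v` -/
def tot (D : QData) (m : ℕ) (n : ℕ → D.I → ℕ) : Prop :=
  (∀ j, m ≤ j → n j = 0) ∧ ∑ j ∈ Finset.range m, n j = D.v

/-- nested sequences of types of total `v` and measure at most `M` -/
def seqM (D : QData) (m M : ℕ) (n : ℕ → D.I → ℕ) : Prop :=
  tot D m n ∧ (∀ j, n (j + 1) ≤ n j) ∧ meas m n ≤ M

/-- the nontrivial sequences, one plain slot -/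
noncomputable def UN (m : ℕ) : Submodule ℂ (AddMonoidAlgebra (S D Z) (B D → ℤ)) :=
  ⨆ n : ℕ → D.I → ℕ, ⨆ _ : seqOK m 1 n, UU w (ep 1) m n

/-- `(ι, g₀)` is a bijection from the marks to the pairs `(a, t)`, `a ∈ C t`, extending
`a ↦ (a, 0)` on `C 0` -/
structure Io {m : ℕ} (C : ℕ → Finset (B D)) (ι : B D → B D) (g₀ : B D → Fin m) : Prop where
  col : ∀ b, (ι b).1 = b.1
  fix : ∀ b ∈ C 0, ι b = b
  mem : ∀ b, ι b ∈ C (g₀ b)
  inj : ∀ b b', ι b = ι b' → g₀ b = g₀ b' → b = b'
  surj : ∀ (a : B D) (t : Fin m), a ∈ C t → ∃ b, ι b = a ∧ g₀ b = t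

/-- the cut ideal -/
noncomputable def cutI : Ideal (S D Z) :=
  Ideal.span {p | ∃ N : Finset (B D), N.Nonempty ∧ p = e w N * e w Nᶜ * zs w N}

end

end Vale.Agent.P291.H.M
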