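import Vale.Agent.P291.M.Basic

set_option autoImplicit false
set_option linter.unusedSectionVars false

/-! Products of Vandermonde determinants over the fibres. -/

namespace Vale.Agent.P291.H.M

open MvPolynomial Vale.Agent.P291.G

variable (D : QData) (Z : Type)

lemma diag2_mem {m : ℕ} (g : B D → Fin m) (t : Fin m) (b : B D) : b ∈ fb D g t ↔ g b = t := by
  simp [fb]

lemma diag2_row {m : ℕ} (g : B D → Fin m) (a : B D) :
    (∏ b ∈ (fb D g (g a))ᶜ, if a.1 = b.1 then xx D Z a - xx D Z b else 1) =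
      ∏ b, if a ≠ b ∧ a.1 = b.1 ∧ g a ≠ g b then xx D Z a - xx D Z b else 1 := by
  classical
  have h1 : (fb D g (g a))ᶜ = Finset.univ.filter fun b => g a ≠ g b := by
    ext b
    rw [Finset.mem_compl, diag2_mem, Finset.mem_filter]
    constructor
    · intro h
      exact ⟨Finset.mem_univ _, fun h' => h h'.symm⟩
    · intro h h'
      exact h.2 h'.symm
  rw [h1, Finset.prod_filter]
  refine Finset.prod_congr rfl fun b _ => ?_
  by_cases h2 : g a ≠ g b
  · have h3 : a ≠ b := fun h => h2 (by rw [h])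
    by_cases h4 : a.1 = b.1
    · rw [if_pos h2, if_pos h4, if_pos ⟨h3, h4, h2⟩]
    · rw [if_pos h2, if_neg h4, if_neg fun h => h4 h.2.1]
  · rw [if_neg h2, if_neg fun h => h2 h.2.2]

lemma diag2_cr {m : ℕ} (g : B D → Fin m) :
    ∏ t : Fin m, cr D Z (fb D g t) (fb D g t)ᶜ = dd D Z fun b c => g b ≠ g c := by
  classical
  have h1 : ∀ t : Fin m, cr D Z (fb D g t) (fb D g t)ᶜ =
      ∏ a ∈ Finset.univ.filter (fun b => g b = t),
        ∏ b, if a ≠ b ∧ a.1 = b.1 ∧ g a ≠ g b then xx D Z a - xx D Z b else 1 := by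
    intro t
    unfold cr
    refine Finset.prod_congr rfl fun a ha => ?_
    have ha' : g a = t := (diag2_mem D g t a).mp ha
    rw [← ha']
    exact diag2_row D Z g a
  rw [Finset.prod_congr rfl fun t _ => h1 t, Finset.prod_fiberwise]
  unfold dd
  refine Finset.prod_congr rfl fun b _ => Finset.prod_congr rfl fun c _ => ?_
  congr

lemma diag2_split {m : ℕ} (g : B D → Fin m) :
    ddT D Z = (dd D Z fun b c => g b ≠ g c) * RR D Z g := by
  classical
  unfold ddT RR dd
  rw [← Finset.prod_mul_distrib]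
  refine Finset.prod_congr rfl fun b _ => ?_
  rw [← Finset.prod_mul_distrib]
  refine Finset.prod_congr rfl fun c _ => ?_
  by_cases h1 : b ≠ c ∧ b.1 = c.1
  · rw [if_pos ⟨h1.1, h1.2, trivial⟩]
    by_cases h2 : g b = g c
    · rw [if_neg fun h => h.2.2 h2, if_pos ⟨h1.1, h1.2, h2⟩, one_mul]
    · rw [if_pos ⟨h1.1, h1.2, h2⟩, if_neg fun h => h2 h.2.2, mul_one]
  · rw [if_neg fun h => h1 ⟨h.1, h.2.1⟩, if_neg fun h => h1 ⟨h.1, h.2.1⟩,
      if_neg fun h => h1 ⟨h.1, h.2.1⟩, one_mul]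

/-- Proof: `del = cr A Aᶜ * Dl A` (`Dl_spec`) for `A = fb g t`, so `del ^ m = (∏ t, cr (fb g t)
(fb g t)ᶜ) * ∏ t, Dl (fb g t)`. The first factor is `dd` with `p b c = (g b ≠ g c)` (`b ∈ fb g t`,
`c ∉ fb g t`), and `ddT = dd (g b ≠ g c) * RR g` (product over `b`, `c`, `if`s). -/
theorem dd_Dl {m : ℕ} (g : B D → Fin m) :
    ddT D Z * ∏ t : Fin m, Dl D Z (fb D g t) = del D Z ^ m * RR D Z g := by
  have h1 : del D Z ^ m =
      (∏ t : Fin m, cr D Z (fb D g t) (fb D g t)ᶜ) * ∏ t : Fin m, Dl D Z (fb D g t) := by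
    rw [← Finset.prod_mul_distrib, ← Finset.prod_congr rfl fun t _ => Dl_spec D Z (fb D g t),
      Finset.prod_const, Finset.card_univ, Fintype.card_fin]
  rw [h1, diag2_cr, diag2_split D Z g]
  ring

end Vale.Agent.P291.H.M
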