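import Vale.Agent.P291.M.Diag1
import Vale.Agent.P291.M.Diag2

set_option autoImplicit false
set_option linter.unusedSectionVars false

/-! The diagonal coefficient and `Δ`. -/

namespace Vale.Agent.P291.H.M

open MvPolynomial Vale.Agent.P291.G

variable {D : QData} {Z : Type} (w : Wts D Z)

theorem diag (ε : ℕ → ℕ) {m : ℕ} (n : ℕ → D.I → ℕ) (Q : PP D Z m) :
    (XQ w ε n Q).coeff (ind D Finset.univ) * ddT D Z = del D Z ^ m * ee w ε n Q := by
  classical
  rw [coeff_XQ, ee, Finset.sum_mul, Finset.mul_sum]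
  refine Finset.sum_congr rfl fun g _ => ?_
  by_cases h : ∀ t : Fin m, typ D (fb D g t) = n t
  · rw [if_pos h, if_pos h, Finset.prod_mul_distrib]
    have h1 := dd_Dl D Z g
    rw [WW]
    calc _ = evA D Z (fb D g) Q * (ddT D Z * ∏ t : Fin m, Dl D Z (fb D g t)) *
          ∏ t : Fin m, (e w (fb D g t) * zs w (fb D g t) ^ ε t) := by ring
      _ = _ := by rw [h1]; ring
  · rw [if_neg h, if_neg h, zero_mul, mul_zero]

end Vale.Agent.P291.H.M
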