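import Vale.Agent.P291.M.Basic

set_option autoImplicit false
set_option linter.unusedSectionVars false

/-! The diagonal coefficient. -/

namespace Vale.Agent.P291.H.M

open MvPolynomial Vale.Agent.P291.G

variable {D : QData} {Z : Type} (w : Wts D Z)

/-- A tuple of subsets has `∑ t, ind (A t) = ind univ` iff it consists of the fibres of a unique
colouring. -/
theorem tuple_iff {m : ℕ} (A : Fin m → Finset (B D)) :
    ∑ t, ind D (A t) = ind D Finset.univ ↔ ∃ g : B D → Fin m, A = fb D g := by
  constructor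
  · intro h
    have h1 : ∀ b : B D, ∃ t, (Finset.univ.filter fun t : Fin m => b ∈ A t) = {t} := by
      intro b
      have h2 := congrFun h b
      rw [Finset.sum_apply] at h2
      have h3 : ∀ t, ind D (A t) b = if b ∈ A t then 1 else 0 := fun t => rfl
      simp only [h3] at h2
      have h4 : ind D Finset.univ b = 1 := if_pos (Finset.mem_univ _)
      rw [h4, Finset.sum_boole] at h2
      rw [← Finset.card_eq_one]
      exact_mod_cast h2
    choose g hg using h1
    refine ⟨g, ?_⟩
    funext t
    ext b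
    rw [mem_fb]
    have h2 := Finset.ext_iff.1 (hg b) t
    rw [Finset.mem_filter, Finset.mem_singleton] at h2
    constructor
    · intro h3
      exact (h2.1 ⟨Finset.mem_univ _, h3⟩).symm
    · intro h3
      exact (h2.2 h3.symm).2
  · rintro ⟨g, rfl⟩
    funext b
    rw [Finset.sum_apply]
    have h3 : ∀ t, ind D (fb D g t) b = if g b = t then 1 else 0 := by
      intro t
      rw [ind]
      exact if_congr (mem_fb D g t b) rfl rfl
    have h4 : ind D Finset.univ b = 1 := if_pos (Finset.mem_univ _)
    simp only [h3, h4]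
    rw [Finset.sum_ite_eq, if_pos (Finset.mem_univ _)]

lemma fb_inj {m : ℕ} : Function.Injective (fb D : (B D → Fin m) → Fin m → Finset (B D)) := by
  intro g g' h
  funext b
  have h1 : b ∈ fb D g (g b) := (mem_fb D g (g b) b).2 rfl
  rw [h, mem_fb] at h1
  exact h1.symm

open Classical in
theorem coeff_XQ (ε : ℕ → ℕ) {m : ℕ} (n : ℕ → D.I → ℕ) (Q : PP D Z m) :
    (XQ w ε n Q).coeff (ind D Finset.univ) =
      ∑ g : B D → Fin m, if ∀ t : Fin m, typ D (fb D g t) = n t then evA D Z (fb D g) Q *
        ∏ t : Fin m, (Dl D Z (fb D g t) * (e w (fb D g t) * zs w (fb D g t) ^ ε t)) else 0 := by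
  have h1 : (XQ w ε n Q).coeff (ind D Finset.univ) =
      ∑ A : Fin m → Finset (B D), if A ∈ Finset.univ.image (fb D : (B D → Fin m) → _) then
        (if ∀ t : Fin m, typ D (A t) = n t then evA D Z A Q *
          ∏ t : Fin m, (Dl D Z (A t) * (e w (A t) * zs w (A t) ^ ε t)) else 0) else 0 := by
    rw [XQ, AddMonoidAlgebra.coeff_sum, Finsupp.finsetSum_apply]
    refine Finset.sum_congr rfl fun A _ => ?_
    have h2 : A ∈ Finset.univ.image (fb D : (B D → Fin m) → _) ↔
        ∑ t, ind D (A t) = ind D Finset.univ := by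
      rw [tuple_iff, Finset.mem_image]
      exact ⟨fun ⟨g, _, hg⟩ => ⟨g, hg.symm⟩, fun ⟨g, hg⟩ => ⟨g, Finset.mem_univ _, hg.symm⟩⟩
    by_cases h3 : ∀ t : Fin m, typ D (A t) = n t
    · rw [if_pos h3, AddMonoidAlgebra.coeff_single, Finsupp.single_apply]
      by_cases h4 : ∑ t, ind D (A t) = ind D Finset.univ
      · rw [if_pos h4, if_pos (h2.2 h4), if_pos h3]
      · rw [if_neg h4, if_neg fun h5 => h4 (h2.1 h5)]
    · rw [if_neg h3]
      by_cases h4 : A ∈ Finset.univ.image (fb D : (B D → Fin m) → _)
      · rw [if_pos h4, if_neg h3]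
        rfl
      · rw [if_neg h4]
        rfl
  rw [h1, ← Finset.sum_filter, Finset.filter_mem_eq_inter, Finset.univ_inter,
    Finset.sum_image fun g _ g' _ h => fb_inj h]

end Vale.Agent.P291.H.M
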