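import Vale.Agent.P291.M.GenA

set_option autoImplicit false
set_option linter.unusedSectionVars false

/-! Invariants of Young subgroups are polynomials in power sums. -/

namespace Vale.Agent.P291.H.M

open MvPolynomial Vale.Agent.P291.G

variable (D : QData) (Z : Type)

lemma Gen_act_inr (σ : W D) (z : Z) : act D Z σ (X (Sum.inr z)) = X (Sum.inr z) := by
  rw [act, rename_X]; rfl

lemma Gen_prod (a : B D → ℕ) (b₀ : B D) (p : S D Z) :
    (∏ b, xx D Z b ^ a b) * (p * X (Sum.inl b₀)) =
      (∏ b, xx D Z b ^ (open Classical in a b + if b = b₀ then 1 else 0)) * p := by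
  classical
  have h1 : (∏ b, xx D Z b ^ (open Classical in a b + if b = b₀ then 1 else 0)) =
      (∏ b, xx D Z b ^ a b) * xx D Z b₀ := by
    simp only [pow_add, Finset.prod_mul_distrib]
    congr 1
    rw [Finset.prod_eq_single b₀ (fun b _ hb => by rw [if_neg hb, pow_zero])
      (fun h => absurd (Finset.mem_univ _) h), if_pos rfl, pow_one]
  rw [h1, xx]
  ring

lemma Gen_aux {κ : Type} [DecidableEq κ] (P : B D → κ) (p : S D Z) : ∀ a : B D → ℕ,
    (∑ σ : W D, open Classical in if ∀ b, P (perm D σ b) = P b then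
      act D Z σ ((∏ b, xx D Z b ^ a b) * p) else 0) ∈ gA D Z P := by
  induction p using MvPolynomial.induction_on with
  | C c =>
    intro a
    have h1 : (∑ σ : W D, open Classical in if ∀ b, P (perm D σ b) = P b then
        act D Z σ ((∏ b, xx D Z b ^ a b) * C c) else 0) =
        (∑ σ : W D, open Classical in if ∀ b, P (perm D σ b) = P b then
          ∏ b, xx D Z (perm D σ b) ^ a b else 0) * algebraMap ℂ (S D Z) c := by
      rw [Finset.sum_mul]
      refine Finset.sum_congr rfl fun σ _ => ?_
      split_ifs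
      · rw [map_mul, map_prod]
        congr 1
        · refine Finset.prod_congr rfl fun b _ => ?_
          rw [map_pow, act_xx]
        · exact AlgHom.commutes (act D Z σ) c
      · rw [zero_mul]
    rw [h1]
    exact Subalgebra.mul_mem _ (gen_mono D Z P a) (Subalgebra.algebraMap_mem _ c)
  | add p q hp hq =>
    intro a
    have h1 : (∑ σ : W D, open Classical in if ∀ b, P (perm D σ b) = P b then
        act D Z σ ((∏ b, xx D Z b ^ a b) * (p + q)) else 0) =
        (∑ σ : W D, open Classical in if ∀ b, P (perm D σ b) = P b then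
          act D Z σ ((∏ b, xx D Z b ^ a b) * p) else 0) +
        (∑ σ : W D, open Classical in if ∀ b, P (perm D σ b) = P b then
          act D Z σ ((∏ b, xx D Z b ^ a b) * q) else 0) := by
      rw [← Finset.sum_add_distrib]
      refine Finset.sum_congr rfl fun σ _ => ?_
      split_ifs
      · rw [mul_add, map_add]
      · rw [add_zero]
    rw [h1]
    exact Subalgebra.add_mem _ (hp a) (hq a)
  | mul_X p i hp =>
    intro a
    cases i with
    | inl b₀ =>
      rw [Gen_prod]
      exact hp _
    | inr z =>
      have h1 : (∑ σ : W D, open Classical in if ∀ b, P (perm D σ b) = P b then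
          act D Z σ ((∏ b, xx D Z b ^ a b) * (p * X (Sum.inr z))) else 0) =
          (∑ σ : W D, open Classical in if ∀ b, P (perm D σ b) = P b then
            act D Z σ ((∏ b, xx D Z b ^ a b) * p) else 0) * X (Sum.inr z) := by
        rw [Finset.sum_mul]
        refine Finset.sum_congr rfl fun σ _ => ?_
        split_ifs
        · rw [← mul_assoc, map_mul, Gen_act_inr]
        · rw [zero_mul]
      rw [h1]
      exact Subalgebra.mul_mem _ (hp a)
        (Algebra.subset_adjoin (Or.inr ⟨z, rfl⟩))

/-- Invariants of Young subgroups. Proof: let `H = {σ | ∀ b, P (perm σ b) = P b}`; `1 ∈ H`, so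
`H.card ≠ 0`, and `(H.card : ℂ) • f = ∑ σ ∈ H, act σ f = ∑ μ ∈ f.support, coeff μ f • ∑ σ ∈ H,
act σ (monomial μ 1)`. A monomial of `S D Z = MvPolynomial (B D ⊕ Z) ℂ` is the product of
`∏ b, xx b ^ μ (inl b)` and of a monomial in the flavors `X (inr z)`, which is fixed by `act` and
is in `gA`. Use `gen_mono`. -/
theorem gen {κ : Type} [DecidableEq κ] (P : B D → κ) {f : S D Z}
    (hf : ∀ σ : W D, (∀ b, P (perm D σ b) = P b) → act D Z σ f = f) : f ∈ gA D Z P := by
  classical
  have h := Gen_aux D Z P f (fun _ => 0)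
  set H : Finset (W D) := Finset.univ.filter fun σ : W D => ∀ b, P (perm D σ b) = P b with hH
  have h1 : (∑ σ : W D, open Classical in if ∀ b, P (perm D σ b) = P b then
      act D Z σ ((∏ b, xx D Z b ^ (fun _ : B D => 0) b) * f) else 0) = (H.card : ℂ) • f := by
    have h2 : (∑ σ : W D, open Classical in if ∀ b, P (perm D σ b) = P b then
        act D Z σ ((∏ b, xx D Z b ^ (fun _ : B D => 0) b) * f) else 0) = ∑ σ ∈ H, f := by
      rw [hH, Finset.sum_filter]
      refine Finset.sum_congr rfl fun σ _ => ?_
      split_ifs with h3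
      · simp only [pow_zero, Finset.prod_const_one, one_mul]
        exact hf σ h3
      · rfl
    rw [h2, Finset.sum_const, Nat.cast_smul_eq_nsmul]
  rw [h1] at h
  have hne : (H.card : ℂ) ≠ 0 := by
    rw [Nat.cast_ne_zero, ← Nat.pos_iff_ne_zero, Finset.card_pos]
    exact ⟨1, by
      rw [hH, Finset.mem_filter]
      exact ⟨Finset.mem_univ _, fun b => rfl⟩⟩
  have h3 := Subalgebra.smul_mem _ h ((H.card : ℂ)⁻¹)
  rwa [smul_smul, inv_mul_cancel₀ hne, one_smul] at h3

end Vale.Agent.P291.H.M
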