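import Vale.Agent.P291.M.Basic

set_option autoImplicit false
set_option linter.unusedSectionVars false

/-! Averages of monomials over Young subgroups are polynomials in power sums. -/

namespace Vale.Agent.P291.H.M

open MvPolynomial Vale.Agent.P291.G

variable (D : QData) (Z : Type)

/-- the algebra generated by the power sums of the blocks `{b | P b = k}` of each colour and the
flavors -/
noncomputable def gA {κ : Type} [DecidableEq κ] (P : B D → κ) : Subalgebra ℂ (S D Z) :=
  Algebra.adjoin ℂ ((Set.range fun p : κ × D.I × ℕ =>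
    ps D Z (Finset.univ.filter fun b => P b = p.1) p.2.1 p.2.2) ∪
      Set.range fun z : Z => (X (Sum.inr z) : S D Z))

section
variable {κ : Type} [DecidableEq κ] (P : B D → κ)

open Classical in
/-- the sum of the monomial with exponents `a` over the Young subgroup -/
noncomputable def genA_M (a : B D → ℕ) : S D Z :=
  ∑ σ : W D, if ∀ b, P (perm D σ b) = P b then ∏ b, xx D Z (perm D σ b) ^ a b else 0

lemma genA_perm_mul (σ τ : W D) (b : B D) : perm D (σ * τ) b = perm D σ (perm D τ b) := rfl

lemma genA_ps (σ : W D) (h : ∀ b, P (perm D σ b) = P b) (k : κ) (i : D.I) (j : ℕ) :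
    ps D Z (Finset.univ.filter fun b => P b = k) i j =
      ∑ c : B D, if P c = k ∧ c.1 = i then xx D Z (perm D σ c) ^ j else 0 := by
  rw [ps, Finset.sum_filter, ← Equiv.sum_comp (perm D σ)]
  refine Finset.sum_congr rfl fun c _ => ?_
  have h1 : (perm D σ c).1 = c.1 := rfl
  rw [h c, h1, ite_and]

lemma genA_mul (a : B D → ℕ) (b₀ : B D) (e : ℕ) :
    genA_M D Z P a * ps D Z (Finset.univ.filter fun b => P b = P b₀) b₀.1 e =
      ∑ c ∈ Finset.univ.filter (fun c : B D => P c = P b₀ ∧ c.1 = b₀.1),
        genA_M D Z P (a + Pi.single c e) := by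
  classical
  simp only [genA_M]
  rw [Finset.sum_comm, Finset.sum_mul]
  refine Finset.sum_congr rfl fun σ _ => ?_
  split_ifs with h
  · rw [genA_ps D Z P σ h, Finset.mul_sum, Finset.sum_filter]
    refine Finset.sum_congr rfl fun c _ => ?_
    split_ifs with h2
    · have : ∀ b, xx D Z (perm D σ b) ^ (a + Pi.single c e : B D → ℕ) b =
          xx D Z (perm D σ b) ^ a b * (if b = c then xx D Z (perm D σ b) ^ e else 1) := by
        intro b
        by_cases hb : b = c
        · subst hb
          rw [Pi.add_apply, Pi.single_eq_same, pow_add, if_pos rfl]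
        · rw [Pi.add_apply, Pi.single_eq_of_ne hb, add_zero, if_neg hb, mul_one]
      rw [Finset.prod_congr rfl fun b _ => this b, Finset.prod_mul_distrib,
        Finset.prod_ite_eq' Finset.univ c, if_pos (Finset.mem_univ c)]
    · rw [mul_zero]
  · rw [zero_mul]
    simp

lemma genA_swap (a : B D → ℕ) (b₀ c : B D) (hP : P c = P b₀) (hc : c.1 = b₀.1)
    (h0 : Function.update a b₀ 0 c = 0) :
    genA_M D Z P (Function.update a b₀ 0 + Pi.single c (a b₀)) = genA_M D Z P a := by
  classical
  obtain ⟨τ, hτ⟩ := exists_W D (Equiv.swap b₀ c) (Equiv.swap b₀ c).injective (by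
    intro b
    by_cases h1 : b = b₀
    · subst h1
      rw [Equiv.swap_apply_left, hc]
    by_cases h2 : b = c
    · subst h2
      rw [Equiv.swap_apply_right, hc]
    rw [Equiv.swap_apply_of_ne_of_ne h1 h2])
  have hPs : ∀ b, P (Equiv.swap b₀ c b) = P b := by
    intro b
    by_cases h1 : b = b₀
    · subst h1
      rw [Equiv.swap_apply_left, hP]
    by_cases h2 : b = c
    · subst h2
      rw [Equiv.swap_apply_right, hP]
    rw [Equiv.swap_apply_of_ne_of_ne h1 h2]
  have ha : ∀ b, (Function.update a b₀ 0 + Pi.single c (a b₀) : B D → ℕ) b =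
      a (Equiv.swap b₀ c b) := by
    intro b
    by_cases h2 : b = c
    · subst h2
      rw [Equiv.swap_apply_right, Pi.add_apply, Pi.single_eq_same, h0, zero_add]
    · rw [Pi.add_apply, Pi.single_eq_of_ne h2, add_zero]
      by_cases h1 : b = b₀
      · subst h1
        rw [Equiv.swap_apply_left, Function.update_self]
        rw [Function.update_of_ne (Ne.symm h2)] at h0
        exact h0.symm
      · rw [Equiv.swap_apply_of_ne_of_ne h1 h2, Function.update_of_ne h1]
  rw [genA_M, genA_M, ← Equiv.sum_comp (Equiv.mulRight τ)]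
  refine Finset.sum_congr rfl fun σ _ => ?_
  have e1 : (∀ b, P (perm D ((Equiv.mulRight τ) σ) b) = P b) ↔ ∀ b, P (perm D σ b) = P b := by
    rw [Equiv.coe_mulRight]
    constructor
    · intro h b
      have h1 := h (Equiv.swap b₀ c b)
      rw [genA_perm_mul, hτ, Equiv.swap_apply_self, hPs] at h1
      exact h1
    · intro h b
      rw [genA_perm_mul, h, hτ, hPs]
  by_cases h : ∀ b, P (perm D σ b) = P b
  · rw [if_pos (e1.2 h), if_pos h, ← Equiv.prod_comp (Equiv.swap b₀ c)]
    refine Finset.prod_congr rfl fun b _ => ?_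
    rw [Equiv.coe_mulRight, genA_perm_mul, hτ, Equiv.swap_apply_self, ha, Equiv.swap_apply_self]
  · rw [if_neg (fun h' => h (e1.1 h')), if_neg h]

end

/-- Averages of monomials. Proof by induction on `((univ.filter fun b => a b ≠ 0)).card`.
If it is `0`, the sum is a natural number. Otherwise choose `b₀` with `a b₀ ≠ 0`, let
`a' = Function.update a b₀ 0` and `M a` the sum in the statement. Let `N` be the block of `b₀`
(`P c = P b₀`, `c.1 = b₀.1`) and `p = ps (filter (P · = P b₀)) b₀.1 (a b₀)`, which is fixed by the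
`σ` in the sum, so `M a' * p = ∑ σ, act σ (∏ b, xx b ^ a' b * p) = ∑ c ∈ N, M (a' + a b₀ δ_c)`
(`act σ (∏ b, xx b ^ a b) = ∏ b, xx (perm σ b) ^ a b`). For `c ∈ N` with `a' c = 0`,
`M (a' + a b₀ δ_c) = M a` (compose with the transposition of `b₀` and `c`, which is in the group,
`Equiv.swap`, `exists_W`); this holds for `c = b₀`, so there are `k ≥ 1` of them. For `c ∈ N` with
`a' c ≠ 0` the support of `a' + a b₀ δ_c` is that of `a'`, which is smaller, so the induction
hypothesis applies. Hence `k • M a` is in the algebra, and `M a` too (`ℂ`-algebra). -/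
theorem gen_mono {κ : Type} [DecidableEq κ] (P : B D → κ) (a : B D → ℕ) :
    (∑ σ : W D, open Classical in if ∀ b, P (perm D σ b) = P b then
      ∏ b, xx D Z (perm D σ b) ^ a b else 0) ∈ gA D Z P := by
  classical
  change genA_M D Z P a ∈ gA D Z P
  induction hn : (Finset.univ.filter fun b => a b ≠ 0).card using Nat.strong_induction_on
    generalizing a with
  | _ n ih =>
  subst hn
  by_cases h0 : ∀ b, a b = 0
  · rw [genA_M]
    refine Subalgebra.sum_mem _ fun σ _ => ?_
    split_ifs
    · rw [Finset.prod_congr rfl fun b _ => by rw [h0 b, pow_zero], Finset.prod_const_one]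
      exact Subalgebra.one_mem _
    · exact Subalgebra.zero_mem _
  · push Not at h0
    obtain ⟨b₀, hb₀⟩ := h0
    set a' : B D → ℕ := Function.update a b₀ 0 with ha'
    have hlt : (Finset.univ.filter fun b => a' b ≠ 0).card <
        (Finset.univ.filter fun b => a b ≠ 0).card := by
      refine Finset.card_lt_card ⟨fun b hb => ?_, fun hs => ?_⟩
      · rw [Finset.mem_filter] at hb ⊢
        refine ⟨Finset.mem_univ _, fun h => hb.2 ?_⟩
        rw [ha', Function.update_apply]
        split_ifs
        · rfl
        · exact h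
      · have := hs (Finset.mem_filter.2 ⟨Finset.mem_univ b₀, hb₀⟩)
        rw [Finset.mem_filter, ha', Function.update_self] at this
        exact this.2 rfl
    have hM' : genA_M D Z P a' ∈ gA D Z P := ih _ hlt a' rfl
    have hp : ps D Z (Finset.univ.filter fun b => P b = P b₀) b₀.1 (a b₀) ∈ gA D Z P :=
      Algebra.subset_adjoin (Or.inl ⟨(P b₀, b₀.1, a b₀), rfl⟩)
    have hkey := genA_mul D Z P a' b₀ (a b₀)
    rw [← Finset.sum_filter_add_sum_filter_not _ (fun c => a' c = 0)] at hkey
    have h1 : ∑ c ∈ (Finset.univ.filter (fun c : B D => P c = P b₀ ∧ c.1 = b₀.1)).filter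
        (fun c => a' c = 0), genA_M D Z P (a' + Pi.single c (a b₀)) =
        ((Finset.univ.filter (fun c : B D => P c = P b₀ ∧ c.1 = b₀.1)).filter
        (fun c => a' c = 0)).card • genA_M D Z P a := by
      rw [← Finset.sum_const]
      refine Finset.sum_congr rfl fun c hc => ?_
      rw [Finset.mem_filter, Finset.mem_filter] at hc
      exact genA_swap D Z P a b₀ c hc.1.2.1 hc.1.2.2 hc.2
    have h2 : ∑ c ∈ (Finset.univ.filter (fun c : B D => P c = P b₀ ∧ c.1 = b₀.1)).filter
        (fun c => ¬ a' c = 0), genA_M D Z P (a' + Pi.single c (a b₀)) ∈ gA D Z P := by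
      refine Subalgebra.sum_mem _ fun c hc => ?_
      rw [Finset.mem_filter] at hc
      refine ih _ (lt_of_eq_of_lt ?_ hlt) _ rfl
      congr 1
      refine Finset.filter_congr fun b _ => ?_
      by_cases hb : b = c
      · subst hb
        rw [Pi.add_apply, Pi.single_eq_same]
        exact ⟨fun _ => hc.2, fun _ h => hc.2 (by omega)⟩
      · rw [Pi.add_apply, Pi.single_eq_of_ne hb, add_zero]
    rw [h1] at hkey
    set k := ((Finset.univ.filter (fun c : B D => P c = P b₀ ∧ c.1 = b₀.1)).filter
        (fun c => a' c = 0)).card with hk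
    have hk0 : k ≠ 0 := by
      refine Finset.card_ne_zero_of_mem (a := b₀) ?_
      rw [Finset.mem_filter, Finset.mem_filter]
      exact ⟨⟨Finset.mem_univ _, rfl, rfl⟩, by rw [ha', Function.update_self]⟩
    have h3 : k • genA_M D Z P a ∈ gA D Z P := by
      rw [eq_sub_of_add_eq hkey.symm]
      exact Subalgebra.sub_mem _ (Subalgebra.mul_mem _ hM' hp) h2
    have h4 : genA_M D Z P a = ((k : ℂ)⁻¹) • (k • genA_M D Z P a) := by
      rw [← Nat.cast_smul_eq_nsmul ℂ, smul_smul, inv_mul_cancel₀ (Nat.cast_ne_zero.2 hk0), one_smul]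
    rw [h4]
    exact Subalgebra.smul_mem _ h3 _

end Vale.Agent.P291.H.M
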