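import Vale.Agent.P291.M.Basic

set_option autoImplicit false
set_option linter.unusedSectionVars false

/-! The identification of marks attached to a chain. -/

namespace Vale.Agent.P291.H.M

open MvPolynomial Vale.Agent.P291.G

variable (D : QData)

/-- cardinality of the marks of a given colour outside `A` -/
lemma iota_card_compl (A : Finset (B D)) (i : D.I) :
    Nat.card {x : {b : B D // b ∉ A} // x.1.1 = i} = D.v i - typ D A i := by
  classical
  have h : (Aᶜ.filter fun b => b.1 = i).card = D.v i - typ D A i := by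
    have := congrFun (typ_compl D A) i
    rwa [Pi.sub_apply, typ] at this
  have h2 : Nat.card {b : B D // b ∉ A ∧ b.1 = i} = (Aᶜ.filter fun b => b.1 = i).card := by
    rw [Nat.card_eq_fintype_card, Fintype.card_subtype]
    congr 1
    ext b
    simp
  rw [← h, ← h2]
  exact Nat.card_congr
    { toFun := fun x => ⟨x.1.1, x.1.2, x.2⟩
      invFun := fun y => ⟨⟨y.1, y.2.1⟩, y.2.2⟩
      left_inv := fun _ => rfl
      right_inv := fun _ => rfl }

/-- cardinality of the pairs of a given colour -/
lemma iota_card_pairs {n : ℕ} (C : Fin n → Finset (B D)) (i : D.I) :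
    Nat.card {y : {q : B D × Fin n // q.1 ∈ C q.2} // y.1.1.1 = i} = ∑ t, typ D (C t) i := by
  classical
  have h : ∀ t : Fin n, Nat.card {b : B D // b ∈ C t ∧ b.1 = i} = typ D (C t) i := by
    intro t
    rw [Nat.card_eq_fintype_card, Fintype.card_subtype, typ]
    congr 1
    ext b
    simp
  rw [← Finset.sum_congr rfl fun t _ => h t, ← Nat.card_sigma]
  exact Nat.card_congr
    { toFun := fun y => ⟨y.1.1.2, y.1.1.1, y.1.2, y.2⟩
      invFun := fun z => ⟨⟨(z.2.1, z.1), z.2.2.1⟩, z.2.2.2⟩
      left_inv := fun _ => rfl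
      right_inv := fun _ => rfl }

/-- Proof: for every colour `i`, the set of the pairs `(a, t)` with `a.1 = i`, `a ∈ C t`, `t : Fin m`
has `∑ t, typ (C t) i = v i` elements, like the set of the `b` with `b.1 = i`; so there is a
bijection from the second set to the first one which maps `a ∈ C 0` to `(a, 0)` (first define it
on `C 0`, then biject the complements, which have the same cardinality). -/
theorem exists_io {m : ℕ} (hm : 1 ≤ m) (C : ℕ → Finset (B D)) (hC : ∀ j, C (j + 1) ⊆ C j)
    (hs : ∑ j ∈ Finset.range m, typ D (C j) = D.v) :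
    ∃ (ι : B D → B D) (g₀ : B D → Fin m), Io C ι g₀ := by
  classical
  obtain ⟨n, rfl⟩ : ∃ n, m = n + 1 := ⟨m - 1, by omega⟩
  have hcard : ∀ i : D.I, Nat.card {x : {b : B D // b ∉ C 0} // x.1.1 = i} =
      Nat.card {y : {q : B D × Fin n // q.1 ∈ C (q.2 + 1)} // y.1.1.1 = i} := by
    intro i
    rw [iota_card_compl, iota_card_pairs D (fun t : Fin n => C (t + 1)) i]
    have h1 := congrFun hs i
    rw [Finset.sum_range_succ', Pi.add_apply, Finset.sum_apply,
      Finset.sum_range (fun j => typ D (C (j + 1)) i)] at h1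
    omega
  have he : ∀ i : D.I, Nonempty ({x : {b : B D // b ∉ C 0} // x.1.1 = i} ≃
      {y : {q : B D × Fin n // q.1 ∈ C (q.2 + 1)} // y.1.1.1 = i}) := fun i =>
    ⟨(Finite.card_eq.1 (hcard i)).some⟩
  let e : {b : B D // b ∉ C 0} ≃ {q : B D × Fin n // q.1 ∈ C (q.2 + 1)} :=
    Equiv.ofFiberEquiv (f := fun x : {b : B D // b ∉ C 0} => x.1.1)
      (g := fun y : {q : B D × Fin n // q.1 ∈ C (q.2 + 1)} => y.1.1.1) fun i => (he i).some
  have hecol : ∀ x, (e x).1.1.1 = x.1.1 := fun x =>
    Equiv.ofFiberEquiv_map (f := fun x : {b : B D // b ∉ C 0} => x.1.1)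
      (g := fun y : {q : B D × Fin n // q.1 ∈ C (q.2 + 1)} => y.1.1.1) (fun i => (he i).some) x
  refine ⟨fun b => if h : b ∈ C 0 then b else (e ⟨b, h⟩).1.1,
    fun b => if h : b ∈ C 0 then 0 else (e ⟨b, h⟩).1.2.succ, ?_, ?_, ?_, ?_, ?_⟩
  · intro b
    by_cases h : b ∈ C 0
    · simp only [dif_pos h]
    · simp only [dif_neg h]
      exact hecol ⟨b, h⟩
  · intro b h
    simp only [dif_pos h]
  · intro b
    by_cases h : b ∈ C 0
    · simp only [dif_pos h]
      exact h
    · simp only [dif_neg h]
      have := (e ⟨b, h⟩).2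
      simpa using this
  · intro b b' h1 h2
    by_cases h : b ∈ C 0 <;> by_cases h' : b' ∈ C 0
    · simp only [dif_pos h, dif_pos h'] at h1
      exact h1
    · simp only [dif_pos h, dif_neg h'] at h2
      exact absurd h2.symm (Fin.succ_ne_zero _)
    · simp only [dif_neg h, dif_pos h'] at h2
      exact absurd h2 (Fin.succ_ne_zero _)
    · simp only [dif_neg h, dif_neg h'] at h1 h2
      have h3 : e ⟨b, h⟩ = e ⟨b', h'⟩ :=
        Subtype.ext (Prod.ext h1 (Fin.succ_injective _ h2))
      exact congrArg Subtype.val (e.injective h3)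
  · intro a t hat
    rcases Fin.eq_zero_or_eq_succ t with rfl | ⟨s, rfl⟩
    · have h : a ∈ C 0 := hat
      exact ⟨a, by simp only [dif_pos h], by simp only [dif_pos h]⟩
    · have h : a ∈ C ((s : ℕ) + 1) := by simpa using hat
      have hb := (e.symm ⟨(a, s), h⟩).2
      refine ⟨(e.symm ⟨(a, s), h⟩).1, ?_, ?_⟩
      · simp only [dif_neg hb, Subtype.coe_eta, Equiv.apply_symm_apply]
      · simp only [dif_neg hb, Subtype.coe_eta, Equiv.apply_symm_apply]

end Vale.Agent.P291.H.M
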