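import Vale.Agent.P291.M.Spread

set_option autoImplicit false
set_option linter.unusedSectionVars false

/-! The value of the reduced diagonal coefficient after the identification of marks. -/

namespace Vale.Agent.P291.H.M

open MvPolynomial Vale.Agent.P291.G

variable {D : QData} {Z : Type} (w : Wts D Z)

lemma KV_kp_ps {ι : B D → B D} (hι : ∀ b, (ι b).1 = b.1) (A : Finset (B D)) (i : D.I) (j : ℕ) :
    kp D Z ι (ps D Z A i j) = ∑ b ∈ A, if (ι b).1 = i then xx D Z (ι b) ^ j else 0 := by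
  rw [ps, map_sum]
  refine Finset.sum_congr rfl fun b _ => ?_
  rw [hι b]
  split_ifs
  · rw [map_pow, kp, xx, rename_X]
    rfl
  · rw [map_zero]

lemma KV_sub {C : ℕ → Finset (B D)} (hC : ∀ j, C (j + 1) ⊆ C j) (t : ℕ) : C t ⊆ C 0 := by
  induction t with
  | zero => exact subset_rfl
  | succ t ih => exact (hC t).trans ih

theorem kp_evA {m : ℕ} {C : ℕ → Finset (B D)} (hC : ∀ j, C (j + 1) ⊆ C j) {ι : B D → B D}
    {g₀ : B D → Fin m} (hio : Io C ι g₀) (g : B D → Fin m)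
    (hi : ∀ b c, ι b = ι c → g b = g c → b = c)
    (hA : ∀ t : Fin m, (fb D g t).image ι = C t) (Q : PP D Z m) :
    kp D Z ι (evA D Z (fb D g) Q) = kp D Z ι (evA D Z (fun t : Fin m => C t) Q) := by
  classical
  have h : (kp D Z ι).comp (evA D Z (fb D g)) =
      (kp D Z ι).comp (evA D Z (fun t : Fin m => C t)) := by
    apply MvPolynomial.algHom_ext
    intro s
    rw [AlgHom.comp_apply, AlgHom.comp_apply, evA, evA, aeval_X, aeval_X]
    rcases s with ⟨t, i, j⟩ | ⟨i, j⟩ | z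
    · change kp D Z ι (ps D Z (fb D g t) i j) = kp D Z ι (ps D Z (C t) i j)
      rw [KV_kp_ps hio.col, KV_kp_ps hio.col]
      have h1 : ∑ b ∈ C t, (if (ι b).1 = i then xx D Z (ι b) ^ j else 0) =
          ∑ b ∈ C t, if b.1 = i then xx D Z b ^ j else 0 := by
        refine Finset.sum_congr rfl fun b hb => ?_
        rw [hio.fix b (KV_sub hC t hb)]
      rw [h1, ← hA t, Finset.sum_image]
      intro b hb c hc hbc
      exact hi b c hbc (((mem_fb D g _ b).1 hb).trans ((mem_fb D g _ c).1 hc).symm)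
    · rfl
    · rfl
  exact DFunLike.congr_fun h Q

theorem kp_WR {m : ℕ} {C : ℕ → Finset (B D)} {ι : B D → B D} {g₀ : B D → Fin m}
    (hio : Io C ι g₀) (ε : ℕ → ℕ) (g : B D → Fin m)
    (hi : ∀ b c, ι b = ι c → g b = g c → b = c)
    (hA : ∀ t : Fin m, (fb D g t).image ι = C t) :
    kp D Z ι (WW w ε g * RR D Z g) = kp D Z ι (WW w ε g₀ * RR D Z g₀) := by
  classical
  have h1 : ∀ b, ∃ c, ι c = ι b ∧ g₀ c = g b := by
    intro b
    apply hio.surj
    rw [← hA]
    exact Finset.mem_image.2 ⟨b, (mem_fb D g _ b).2 rfl, rfl⟩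
  choose f hf1 hf2 using h1
  have hfi : Function.Injective f := by
    intro b b' hbb
    apply hi
    · rw [← hf1 b, ← hf1 b', hbb]
    · rw [← hf2 b, ← hf2 b', hbb]
  obtain ⟨σ, hσ⟩ := exists_W D f hfi (fun b => by rw [← hio.col (f b), hf1, hio.col])
  have h2 : g₀ = g ∘ (perm D σ).symm := by
    funext b
    obtain ⟨c, rfl⟩ := (perm D σ).surjective b
    rw [Function.comp_apply, Equiv.symm_apply_apply, hσ, hf2]
  have h3 : ∀ b, ι (perm D σ b) = ι b := fun b => by rw [hσ, hf1]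
  have h4 : WW w ε g₀ * RR D Z g₀ = act D Z σ (WW w ε g * RR D Z g) := by
    rw [map_mul, act_WW, act_RR, ← h2]
  rw [h4, kp_act D Z ι σ h3]

/-- the factors are nonzero: `NV`, and `ι b ≠ ι c` if `b ≠ c`, `g₀ b = g₀ c` -/
theorem kp_ne (hw : NV w) {m : ℕ} {C : ℕ → Finset (B D)} {ι : B D → B D} {g₀ : B D → Fin m}
    (hio : Io C ι g₀) (ε : ℕ → ℕ) : kp D Z ι (WW w ε g₀ * RR D Z g₀) ≠ 0 := by
  classical
  rw [map_mul]
  refine mul_ne_zero ?_ ?_
  · rw [WW, map_prod]
    refine Finset.prod_ne_zero_iff.2 fun t _ => ?_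
    rw [map_mul, map_pow]
    refine mul_ne_zero ?_ (pow_ne_zero _ ?_)
    · rw [e, map_prod]
      refine Finset.prod_ne_zero_iff.2 fun b hb => ?_
      rw [map_prod]
      refine Finset.prod_ne_zero_iff.2 fun c hc => ?_
      refine hw.h_ne ι hio.col b c ?_
      rintro rfl
      exact (Finset.mem_compl.1 hc) hb
    · rw [zs, map_prod]
      exact Finset.prod_ne_zero_iff.2 fun b _ => hw.z_ne ι hio.col b
  · rw [RR, dd, map_prod]
    refine Finset.prod_ne_zero_iff.2 fun b _ => ?_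
    rw [map_prod]
    refine Finset.prod_ne_zero_iff.2 fun c _ => ?_
    split_ifs with h
    · have h1 : ι b ≠ ι c := fun h1 => h.1 (hio.inj b c h1 h.2.2)
      have h2 : kp D Z ι (xx D Z b - xx D Z c) = xx D Z (ι b) - xx D Z (ι c) := by
        rw [map_sub, kp, xx, xx, rename_X, rename_X]
        rfl
      rw [h2]
      exact vdm_sub_ne D Z h1
    · rw [map_one]
      exact one_ne_zero

/-- `g₀` is a surviving colouring -/
lemma KV_g0 {m : ℕ} {C : ℕ → Finset (B D)} {ι : B D → B D} {g₀ : B D → Fin m}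
    (hio : Io C ι g₀) (t : Fin m) : (fb D g₀ t).image ι = C t := by
  ext a
  rw [Finset.mem_image]
  constructor
  · rintro ⟨b, hb, rfl⟩
    have h1 := hio.mem b
    rwa [(mem_fb D g₀ t b).1 hb] at h1
  · intro ha
    obtain ⟨b, hb, hbt⟩ := hio.surj a t ha
    exact ⟨b, (mem_fb D g₀ t b).2 hbt, hb⟩

lemma KV_typ {m : ℕ} {C : ℕ → Finset (B D)} {ι : B D → B D} (hι : ∀ b, (ι b).1 = b.1)
    (g : B D → Fin m) (hi : ∀ b c, ι b = ι c → g b = g c → b = c)
    (hA : ∀ t : Fin m, (fb D g t).image ι = C t) (t : Fin m) :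
    typ D (fb D g t) = typ D (C t) := by
  rw [← hA t, Spread_typ_image hι]
  intro b hb c hc hbc
  exact hi b c hbc (((mem_fb D g _ b).1 hb).trans ((mem_fb D g _ c).1 hc).symm)

/-- types which do not survive (`spread_inj`, `spread`) -/
theorem kv_zero {m : ℕ} {C : ℕ → Finset (B D)} (hC : ∀ j, C (j + 1) ⊆ C j) {ι : B D → B D}
    {g₀ : B D → Fin m} (hio : Io C ι g₀) {n n' : ℕ → D.I → ℕ} (hn : ∀ j, typ D (C j) = n j)
    (hle : meas m n' ≤ meas m n) (hne : ∃ j, j < m ∧ n' j ≠ n j) (ε : ℕ → ℕ) (Q : PP D Z m) :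
    kp D Z ι (ee w ε n' Q) = 0 := by
  classical
  rw [ee, map_sum]
  refine Finset.sum_eq_zero fun g _ => ?_
  split_ifs with hg
  · by_cases h0 : kp D Z ι (RR D Z g) = 0
    · rw [map_mul, map_mul, h0, mul_zero, mul_zero]
    · exfalso
      obtain ⟨j, hj, hjn⟩ := hne
      exact hjn ((spread hC hio hn hle g hg (spread_inj Z hio.col g h0)).2 ⟨j, hj⟩)
  · rw [map_zero]

/-- the surviving type: `kp ι (ee w ε n Q)` is the number of surviving colourings (at least one,
`g₀`) times `kp ι (evA C Q) * kp ι (WW g₀ * RR g₀)` -/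
theorem kv_top (hw : NV w) {m : ℕ} {C : ℕ → Finset (B D)} (hC : ∀ j, C (j + 1) ⊆ C j)
    {ι : B D → B D} {g₀ : B D → Fin m} (hio : Io C ι g₀) {n : ℕ → D.I → ℕ}
    (hn : ∀ j, typ D (C j) = n j) (ε : ℕ → ℕ) (Q : PP D Z m)
    (h : kp D Z ι (ee w ε n Q) = 0) : kp D Z ι (evA D Z (fun t : Fin m => C t) Q) = 0 := by
  classical
  set T : Finset (B D → Fin m) := Finset.univ.filter fun g =>
    (∀ b c, ι b = ι c → g b = g c → b = c) ∧ ∀ t : Fin m, (fb D g t).image ι = C t with hT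
  have h1 : kp D Z ι (ee w ε n Q) = (T.card : S D Z) *
      (kp D Z ι (evA D Z (fun t : Fin m => C t) Q) *
        kp D Z ι (WW w ε g₀ * RR D Z g₀)) := by
    rw [ee, map_sum, ← nsmul_eq_mul, ← Finset.sum_const, hT, Finset.sum_filter]
    refine Finset.sum_congr rfl fun g _ => ?_
    by_cases hg : (∀ b c, ι b = ι c → g b = g c → b = c) ∧
        ∀ t : Fin m, (fb D g t).image ι = C t
    · rw [if_pos hg, if_pos, map_mul, kp_evA hC hio g hg.1 hg.2,
        kp_WR w hio ε g hg.1 hg.2]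
      intro t
      rw [KV_typ hio.col g hg.1 hg.2 t, hn t]
    · rw [if_neg hg]
      split_ifs with ht
      · by_cases h0 : kp D Z ι (RR D Z g) = 0
        · rw [map_mul, map_mul, h0, mul_zero, mul_zero]
        · exfalso
          have hi := spread_inj Z hio.col g h0
          exact hg ⟨hi, (spread hC hio hn le_rfl g ht hi).1⟩
      · rw [map_zero]
  have h2 : T.card ≠ 0 := by
    refine Finset.card_ne_zero.2 ⟨g₀, ?_⟩
    rw [hT, Finset.mem_filter]
    exact ⟨Finset.mem_univ _, hio.inj, KV_g0 hio⟩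
  rw [h1] at h
  rcases mul_eq_zero.1 h with h3 | h3
  · exact absurd h3 (Nat.cast_ne_zero.2 h2)
  · exact (mul_eq_zero.1 h3).resolve_right (kp_ne w hw hio ε)

end Vale.Agent.P291.H.M
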