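import Vale.Agent.P291.M.Basic
import Vale.Agent.P291.J.PartI

set_option autoImplicit false
set_option linter.unusedSectionVars false

/-! From the cut ideal to the colourings (the theorem is `Vale.Agent.P291.J.partI`). -/

namespace Vale.Agent.P291.H.M

open MvPolynomial Vale.Agent.P291.G

variable {D : QData} {Z : Type} (w : Wts D Z)

lemma Rnc_eq {m : ℕ} (g : B D → Fin m) :
    Vale.Agent.P291.J.Rnc (fun b => (g b : ℕ)) = RR D Z g := by
  classical
  rw [J.Rnc, RR, dd, Fintype.prod_prod_type]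
  refine Finset.prod_congr rfl fun b _ => Finset.prod_congr rfl fun c _ => ?_
  by_cases h : (b ≠ c ∧ b.1 = c.1) ∧ (g b : ℕ) = g c
  · exact (if_pos h).trans (if_pos ⟨h.1.1, h.1.2, Fin.ext h.2⟩).symm
  · exact (if_neg h).trans (if_neg fun h' => h ⟨⟨h'.1, h'.2.1⟩, by rw [h'.2.2]⟩).symm

lemma Delta_eq : Vale.Agent.P291.J.Delta D Z = ddT D Z := by
  classical
  rw [J.Delta, ddT, dd, Fintype.prod_prod_type]
  refine Finset.prod_congr rfl fun b _ => Finset.prod_congr rfl fun c _ => ?_
  by_cases h : b ≠ c ∧ b.1 = c.1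
  · exact (if_pos h).trans (if_pos ⟨h.1, h.2, trivial⟩).symm
  · exact (if_neg h).trans (if_neg fun h' => h ⟨h'.1, h'.2.1⟩).symm

/-- `WW w (ep 1) g` is the product of the `h b c` with `g b ≠ g c` and of the `z b` with
`g b ≠ 0` -/
lemma Wg_eq {m : ℕ} (g : B D → Fin m) :
    Vale.Agent.P291.J.Wg w (fun b => (g b : ℕ)) = WW w (ep 1) g := by
  classical
  rw [J.Wg, WW, Finset.prod_mul_distrib]
  congr 1
  · have h1 : ∀ t : Fin m, e w (fb D g t) = ∏ b : B D, if g b = t then
        (∏ c : B D, if g b ≠ g c then w.h b c else 1) else 1 := by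
      intro t
      rw [e, fb, Finset.prod_filter]
      refine Finset.prod_congr rfl fun b _ => ?_
      split_ifs with hb
      · have h3 : (Finset.univ.filter fun b : B D => g b = t)ᶜ =
            Finset.univ.filter fun c : B D => g b ≠ g c := by
          ext c
          simp [← hb, eq_comm]
        rw [h3, Finset.prod_filter]
      · rfl
    rw [Finset.prod_congr rfl fun t _ => h1 t, Finset.prod_comm, Fintype.prod_prod_type]
    refine Finset.prod_congr rfl fun b _ => ?_
    rw [Finset.prod_ite_eq, if_pos (Finset.mem_univ _)]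
    refine Finset.prod_congr rfl fun c _ => ?_
    exact if_congr (not_congr Fin.val_inj) rfl rfl
  · have h1 : ∀ t : Fin m, zs w (fb D g t) ^ ep 1 t = ∏ b : B D, if g b = t then
        (if (g b : ℕ) ≠ 0 then w.z b else 1) else 1 := by
      intro t
      rw [zs, fb, Finset.prod_filter, ← Finset.prod_pow]
      refine Finset.prod_congr rfl fun b _ => ?_
      by_cases hb : g b = t
      · rw [if_pos hb, if_pos hb, ep, hb]
        by_cases ht : (t : ℕ) = 0
        · rw [if_pos (by omega), pow_zero, if_neg (by omega)]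
        · rw [if_neg (by omega), pow_one, if_pos (by omega)]
      · rw [if_neg hb, if_neg hb, one_pow]
    rw [Finset.prod_congr rfl fun t _ => h1 t, Finset.prod_comm]
    refine Finset.prod_congr rfl fun b _ => ?_
    rw [Finset.prod_ite_eq, if_pos (Finset.mem_univ _)]

theorem partI (L : Vale.Agent.P291.J.Lab w) {m : ℕ} (hm : Fintype.card (B D) + 1 ≤ m)
    {r : S D Z} (h : r * ddT D Z ∈ cutI w) :
    r * ddT D Z ∈ Ideal.span {p | ∃ g : B D → Fin m, (∃ b, (g b : ℕ) ≠ 0) ∧
      p = RR D Z g * WW w (ep 1) g} := by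
  rw [← Delta_eq] at h ⊢
  obtain ⟨s, hs⟩ := Vale.Agent.P291.J.partI w L (m := m) (by omega) h
  rw [hs]
  refine Ideal.sum_mem _ fun g hg => Ideal.mul_mem_left _ _ (Ideal.subset_span
    ⟨g, (Finset.mem_filter.1 hg).2, ?_⟩)
  rw [Rnc_eq, Wg_eq]

end Vale.Agent.P291.H.M
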