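import Vale.Agent.P291.J.Orbit
import Vale.Agent.P291.M.PartI

set_option autoImplicit false
set_option linter.unusedSectionVars false

/-! From the cluster expansion to an element of the slot spaces (the theorem is
`Vale.Agent.P291.J.exists_X`). -/

namespace Vale.Agent.P291.H.M

open MvPolynomial Vale.Agent.P291.G

variable {D : QData} {Z : Type} (w : Wts D Z)

theorem exists_X {m : ℕ} (hm : 1 ≤ m) {r : S D Z} (hr : ∀ σ, act D Z σ r = r)
    (h : r * ddT D Z ∈ Ideal.span {p | ∃ g : B D → Fin m, (∃ b, (g b : ℕ) ≠ 0) ∧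
      p = RR D Z g * WW w (ep 1) g}) :
    ∃ X ∈ UN w m, X.coeff (ind D Finset.univ) = r * del D Z ^ m := by
  classical
  have h1 : {p | ∃ g : B D → Fin m, (∃ b, (g b : ℕ) ≠ 0) ∧ p = RR D Z g * WW w (ep 1) g} =
      (fun g : B D → Fin m => RR D Z g * WW w (ep 1) g) ''
        (Finset.univ.filter (fun g : B D → Fin m => ∃ b, (g b : ℕ) ≠ 0) :
          Finset (B D → Fin m)) := by
    ext p
    rw [Set.mem_image]
    constructor
    · rintro ⟨g, hg, rfl⟩
      exact ⟨g, Finset.mem_coe.2 (Finset.mem_filter.2 ⟨Finset.mem_univ _, hg⟩), rfl⟩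
    · rintro ⟨g, hg, rfl⟩
      exact ⟨g, (Finset.mem_filter.1 (Finset.mem_coe.1 hg)).2, rfl⟩
  rw [h1] at h
  obtain ⟨s, hs⟩ := (Submodule.mem_span_image_finset_iff_exists_fun' (S D Z)).1 h
  refine Vale.Agent.P291.J.exists_X w hm hr (s := s) ?_
  rw [Delta_eq, ← hs]
  refine Finset.sum_congr rfl fun g _ => ?_
  rw [Rnc_eq, Wg_eq, smul_eq_mul]

end Vale.Agent.P291.H.M
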