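import Vale.Agent.P291.M.ZDstep

set_option autoImplicit false
set_option linter.unusedSectionVars false

/-! The zero-diagonal theorem. -/

namespace Vale.Agent.P291.H.M

open MvPolynomial Vale.Agent.P291.G

variable {D : QData} {Z : Type} (w : Wts D Z)

lemma ZD_le_v {m : ℕ} {n : ℕ → D.I → ℕ} (ht : tot D m n) (j : ℕ) : n j ≤ D.v := by
  by_cases hj : j < m
  · intro i
    rw [← ht.2, Finset.sum_apply]
    exact Finset.single_le_sum (f := fun j => n j i) (fun _ _ => Nat.zero_le _)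
      (Finset.mem_range.2 hj)
  · rw [ht.1 j (by omega)]
    exact fun i => Nat.zero_le _

/-- a total sequence with `n 0 = v` is trivial -/
lemma ZD_eq_seqT {m : ℕ} (hm : 1 ≤ m) {n : ℕ → D.I → ℕ} (ht : tot D m n) (h0 : n 0 = D.v) :
    ∀ j, 1 ≤ j → n j = 0 := by
  intro j hj
  by_cases hjm : j < m
  · funext i
    have h1 := congrFun ht.2 i
    rw [Finset.sum_apply, ← Finset.add_sum_erase _ _ (Finset.mem_range.2 (by omega : 0 < m)),
      h0] at h1
    have h2 : ∑ k ∈ (Finset.range m).erase 0, n k i = 0 := by omega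
    exact (Finset.sum_eq_zero_iff.1 h2) j
      (Finset.mem_erase.2 ⟨by omega, Finset.mem_range.2 hjm⟩)
  · exact ht.1 j (by omega)

lemma ZD_meas_zero {m : ℕ} {n : ℕ → D.I → ℕ} (h1 : ∀ j, 1 ≤ j → n j = 0) : meas m n = 0 := by
  refine Finset.sum_eq_zero fun j _ => ?_
  rcases Nat.eq_zero_or_pos j with h | h
  · rw [h, zero_mul]
  · rw [h1 j h]
    simp

lemma ZD_zero_of_meas {m : ℕ} {n : ℕ → D.I → ℕ} (ht : tot D m n) (h0 : meas m n = 0) :
    ∀ j, 1 ≤ j → n j = 0 := by
  intro j hj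
  by_cases hjm : j < m
  · have h2 := (Finset.sum_eq_zero_iff.1 h0) j (Finset.mem_range.2 hjm)
    have h3 : ∑ i, n j i = 0 := by
      rcases Nat.mul_eq_zero.1 h2 with h | h
      · omega
      · exact h
    funext i
    exact (Finset.sum_eq_zero_iff.1 h3) i (Finset.mem_univ i)
  · exact ht.1 j (by omega)

lemma ZD_meas_le {m : ℕ} {n : ℕ → D.I → ℕ} (ht : tot D m n) : meas m n ≤ m * ∑ i, D.v i := by
  have h1 : ∑ j ∈ Finset.range m, ∑ i, n j i = ∑ i, D.v i := by
    rw [Finset.sum_comm]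
    refine Finset.sum_congr rfl fun i _ => ?_
    rw [← ht.2, Finset.sum_apply]
  rw [← h1, Finset.mul_sum]
  refine Finset.sum_le_sum fun j hj => ?_
  exact Nat.mul_le_mul_right _ (Finset.mem_range.1 hj).le

lemma ZD_seqM_mono {m M M' : ℕ} (h : M ≤ M') :
    (⨆ n : ℕ → D.I → ℕ, ⨆ _ : seqM D m M n, UU w (ep 1) m n) ≤
      ⨆ n : ℕ → D.I → ℕ, ⨆ _ : seqM D m M' n, UU w (ep 1) m n := by
  refine iSup_mono fun n => iSup_mono' fun h' => ⟨?_, le_rfl⟩
  exact ⟨h'.1, h'.2.1, h'.2.2.trans h⟩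

/-- the identification of marks kills `Δ` -/
lemma ZD_kp_ddT {m : ℕ} {C : ℕ → Finset (B D)} (hC : ∀ j, C (j + 1) ⊆ C j) {ι : B D → B D}
    {g₀ : B D → Fin m} (hio : Io C ι g₀) {b : B D} (hb : b ∉ C 0) : kp D Z ι (ddT D Z) = 0 := by
  have hsub : ∀ j, C j ⊆ C 0 := by
    intro j
    induction j with
    | zero => exact Finset.Subset.refl _
    | succ k ih => exact (hC k).trans ih
  have h1 : ι b ∈ C 0 := hsub _ (hio.mem b)
  have h2 : b ≠ ι b := fun h => hb (h ▸ h1)
  have h3 : ι (ι b) = ι b := hio.fix _ h1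
  unfold ddT dd
  rw [map_prod]
  refine Finset.prod_eq_zero (Finset.mem_univ b) ?_
  rw [map_prod]
  refine Finset.prod_eq_zero (Finset.mem_univ (ι b)) ?_
  rw [if_pos ⟨h2, (hio.col b).symm, trivial⟩, map_sub, theta_kp_xx, theta_kp_xx, h3, sub_self]

/-- measure `0`: only the trivial sequence; elements of `UU w (ep 1) m (seqT D 1)` are of the form
`single (ind univ) c` (`U_zero_v`, `U_one_zero`), so `X = single (ind univ) (c * del ^ m)` and the
difference is `0` -/
theorem zd_zero {m : ℕ} (hm : 1 ≤ m) {X : AddMonoidAlgebra (S D Z) (B D → ℤ)}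
    (hX : X ∈ ⨆ n : ℕ → D.I → ℕ, ⨆ _ : seqM D m 0 n, UU w (ep 1) m n) :
    X = AddMonoidAlgebra.single (ind D Finset.univ) (X.coeff (ind D Finset.univ)) := by
  have h1 : ∀ l : B D → ℤ, l ≠ ind D Finset.univ → X.coeff l = 0 := by
    intro l hl
    have h2 : (⨆ n : ℕ → D.I → ℕ, ⨆ _ : seqM D m 0 n, UU w (ep 1) m n) ≤
        coeffKer (D := D) (Z := Z) l := by
      refine iSup_le fun n => iSup_le fun hn => fun Y hY => ?_
      rw [mem_coeffKer]
      by_contra hY0
      obtain ⟨A, hA, hlA⟩ := coeff_ne w (ep 1) m n hY hY0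
      have h3 := ZD_zero_of_meas hn.1 (Nat.le_zero.1 hn.2.2)
      refine hl ?_
      rw [hlA, Finset.sum_eq_single 0]
      · have h4 : typ D (A 0) = typ D Finset.univ := by
          rw [hA 0 (by omega), typ_univ]
          have h5 := hn.1.2
          rw [Finset.sum_eq_single 0] at h5
          · exact h5
          · intro j _ hj
            exact h3 j (by omega)
          · intro h6
            exact absurd (Finset.mem_range.2 (by omega : 0 < m)) h6
        rw [eq_of_subset D (Finset.subset_univ _) h4]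
      · intro j hj hj0
        have h4 : A j = ∅ := by
          apply typ_eq_zero
          rw [hA j (Finset.mem_range.1 hj), h3 j (by omega)]
        rw [h4]
        funext b
        exact if_neg (Finset.notMem_empty b)
      · intro h6
        exact absurd (Finset.mem_range.2 (by omega : 0 < m)) h6
    exact mem_coeffKer.1 (h2 hX)
  apply AddMonoidAlgebra.coeff_injective
  ext1 l
  rw [AddMonoidAlgebra.coeff_single, Finsupp.single_apply]
  by_cases hl : ind D Finset.univ = l
  · rw [if_pos hl, hl]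
  · rw [if_neg hl]
    exact h1 l (Ne.symm hl)

/-- Proof: write `X = ∑ n ∈ s, XQ n (Q n)` (`exists_sum`). From `diag` (summed over `n`) and `hc`,
`∑ n ∈ s, ee w (ep 1) n (Q n) = c * ddT` (cancel `del ^ m`). For `n ∈ s` with `meas m n = M + 1`
choose a chain `C` of type `n` (`exists_chain`) and `Io C ι g₀` (`exists_io`). `kp ι ddT = 0`: there
is `b ∉ C 0` (otherwise `n 0 = v`, so `n = seqT D 1` has measure `0`), `ι b ∈ C 0` (`hio.mem`, chain)
so `ι b ≠ b`, `ι (ι b) = ι b`, and the factor `x b - x (ι b)` is mapped to `0`. By `kv_zero` for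
the other elements of `s`, `kp ι (ee n (Q n)) = 0`, so by `kv_top` `kp ι (evA C (Q n)) = 0`, and
`zd_type` gives `Y n`. The elements of `s` of measure `≤ M` are fine. -/
theorem zd_step (hw : NV w) {m M : ℕ} (hm : 1 ≤ m) {X : AddMonoidAlgebra (S D Z) (B D → ℤ)}
    (hX : X ∈ ⨆ n : ℕ → D.I → ℕ, ⨆ _ : seqM D m (M + 1) n, UU w (ep 1) m n) {c : S D Z}
    (hc : X.coeff (ind D Finset.univ) = c * del D Z ^ m) :
    ∃ Y ∈ UN w m, Y.coeff (ind D Finset.univ) = 0 ∧
      X - Y ∈ ⨆ n : ℕ → D.I → ℕ, ⨆ _ : seqM D m M n, UU w (ep 1) m n := by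
  classical
  obtain ⟨s, Q, hs, hXs⟩ := exists_sum w hX
  have hsum : c * ddT D Z = ∑ n ∈ s, ee w (ep 1) n (Q n) := by
    refine mul_left_cancel₀ (pow_ne_zero m (del_ne_zero D Z)) ?_
    rw [Finset.mul_sum, ← Finset.sum_congr rfl fun n _ => diag w (ep 1) n (Q n),
      ← Finset.sum_mul, ← mul_assoc, mul_comm (del D Z ^ m) c, ← hc, hXs,
      AddMonoidAlgebra.coeff_sum, Finsupp.finsetSum_apply]
  have key : ∀ n ∈ s, ∃ Y ∈ UN w m, Y.coeff (ind D Finset.univ) = 0 ∧
      XQ w (ep 1) n (Q n) - Y ∈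
        ⨆ n' : ℕ → D.I → ℕ, ⨆ _ : seqM D m M n', UU w (ep 1) m n' := by
    intro n hn
    have hnM := hs n hn
    by_cases hM : meas m n = M + 1
    · obtain ⟨C, hC, ht⟩ := exists_chain n hnM.2.1 (ZD_le_v hnM.1 0)
      have hv : ∑ j ∈ Finset.range m, typ D (C j) = D.v := by
        rw [← hnM.1.2]
        exact Finset.sum_congr rfl fun j _ => ht j
      obtain ⟨ι, g₀, hio⟩ := exists_io D hm C hC hv
      obtain ⟨b, hb⟩ : ∃ b, b ∉ C 0 := by
        by_contra hne
        push Not at hne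
        have h1 : C 0 = Finset.univ := Finset.eq_univ_iff_forall.2 hne
        have h2 : n 0 = D.v := by rw [← ht 0, h1, typ_univ]
        have h3 := ZD_meas_zero (m := m) (ZD_eq_seqT hm hnM.1 h2)
        omega
      have h1 := congrArg (kp D Z ι) hsum
      rw [map_mul, ZD_kp_ddT hC hio hb, mul_zero, map_sum, Finset.sum_eq_single n] at h1
      · exact zd_type w hm hnM hM hC ht hio (kv_top w hw hC hio ht (ep 1) (Q n) h1.symm)
      · intro n' hn' hne
        refine kv_zero w hC hio ht ?_ ?_ (ep 1) (Q n')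
        · rw [hM]
          exact (hs n' hn').2.2
        · by_contra h2
          push Not at h2
          apply hne
          funext j
          by_cases hj : j < m
          · exact h2 j hj
          · rw [(hs n' hn').1.1 j (by omega), hnM.1.1 j (by omega)]
      · intro h2
        exact absurd hn h2
    · refine ⟨0, Submodule.zero_mem _, ?_, ?_⟩
      · rw [AddMonoidAlgebra.coeff_zero, Finsupp.zero_apply]
      · rw [sub_zero]
        have h1 : seqM D m M n := by
          have h2 := hnM.2.2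
          exact ⟨hnM.1, hnM.2.1, by omega⟩
        exact Submodule.mem_iSup_of_mem n
          (Submodule.mem_iSup_of_mem h1 (XQ_mem w (ep 1) hm n (Q n)))
  choose! Y hY using key
  refine ⟨∑ n ∈ s, Y n, Submodule.sum_mem _ fun n hn => (hY n hn).1, ?_, ?_⟩
  · rw [AddMonoidAlgebra.coeff_sum, Finsupp.finsetSum_apply]
    exact Finset.sum_eq_zero fun n hn => (hY n hn).2.1
  · rw [hXs, ← Finset.sum_sub_distrib]
    exact Submodule.sum_mem _ fun n hn => (hY n hn).2.2

theorem zd_aux (hw : NV w) {m : ℕ} (hm : 1 ≤ m) (M : ℕ) :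
    ∀ {X : AddMonoidAlgebra (S D Z) (B D → ℤ)},
    (X ∈ ⨆ n : ℕ → D.I → ℕ, ⨆ _ : seqM D m M n, UU w (ep 1) m n) → ∀ {c : S D Z},
    X.coeff (ind D Finset.univ) = c * del D Z ^ m →
    X - AddMonoidAlgebra.single (ind D Finset.univ) (c * del D Z ^ m) ∈ UN w m := by
  induction M with
  | zero =>
    intro X hX c hc
    rw [zd_zero w hm hX, hc, sub_self]
    exact Submodule.zero_mem _
  | succ M ih =>
    intro X hX c hc
    obtain ⟨Y, hY, hY0, hXY⟩ := zd_step w hw hm hX hc
    have h1 := ih hXY (c := c) (by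
      rw [AddMonoidAlgebra.coeff_sub, Finsupp.sub_apply, hY0, sub_zero, hc])
    have h2 : X - AddMonoidAlgebra.single (ind D Finset.univ) (c * del D Z ^ m) =
        (X - Y - AddMonoidAlgebra.single (ind D Finset.univ) (c * del D Z ^ m)) + Y := by
      abel
    rw [h2]
    exact Submodule.add_mem _ h1 hY

/-- an element of `UN` can be straightened -/
theorem UN_le {m : ℕ} : ∃ M, UN w m ≤ ⨆ n : ℕ → D.I → ℕ, ⨆ _ : seqM D m M n, UU w (ep 1) m n := by
  refine ⟨m * ∑ i, D.v i, ?_⟩
  refine iSup_le fun n => iSup_le fun hn => ?_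
  have ht : tot D m n := by
    refine ⟨hn.1, ?_⟩
    rw [hn.2.1, one_smul]
  exact (strAll w n ht).trans (ZD_seqM_mono w (ZD_meas_le ht))

/-- the zero-diagonal theorem -/
theorem zd (hw : NV w) {m : ℕ} (hm : 1 ≤ m) {X : AddMonoidAlgebra (S D Z) (B D → ℤ)}
    (hX : X ∈ UN w m) {c : S D Z}
    (hc : X.coeff (ind D Finset.univ) = c * del D Z ^ m) :
    AddMonoidAlgebra.single (ind D Finset.univ) (c * del D Z ^ m) ∈ UN w m := by
  obtain ⟨M, hM⟩ := UN_le w (m := m)
  have h := zd_aux w hw hm M (hM hX) hc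
  have h2 := Submodule.sub_mem _ hX h
  rwa [sub_sub_cancel] at h2

end Vale.Agent.P291.H.M
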