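import Vale.Agent.P291.M.PartI
import Vale.Agent.P291.M.Orbit
import Vale.Agent.P291.M.ZD

set_option autoImplicit false
set_option linter.unusedSectionVars false

/-! The cut ideal gives quadratic relations. -/

namespace Vale.Agent.P291.H.M

open MvPolynomial Vale.Agent.P291.G

variable {D : QData} {Z : Type} (w : Wts D Z)

theorem linRel_of_cut (L : Vale.Agent.P291.J.Lab w) (hN : NV w) {r : S D Z} (hr : ∀ σ, act D Z σ r = r)
    (h : r * ddT D Z ∈ cutI w) : LinRel w r := by
  obtain ⟨m, hm⟩ : ∃ m, m = Fintype.card (B D) + 2 := ⟨_, rfl⟩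
  have h1 := partI w L (m := m) (by omega) h
  obtain ⟨X, hX, hc⟩ := exists_X w (m := m) (by omega) hr h1
  have h2 := zd w hN (by omega) hX hc
  have h3 : AddMonoidAlgebra.single (1 • ind D Finset.univ) (r * del D Z ^ m) ∈ LL w m 1 := by
    rw [one_smul]
    refine descend w le_rfl (by omega) h2 fun lam hlam => ?_
    rw [one_smul] at hlam
    rw [AddMonoidAlgebra.coeff_single, Finsupp.single_apply, if_neg (Ne.symm hlam)]
  exact linRel_of w (extract w le_rfl (by omega) h3)

end Vale.Agent.P291.H.M
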