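import Vale.Agent.P291.M.Basic

set_option autoImplicit false
set_option linter.unusedSectionVars false

/-! Colourings which survive the identification of marks. -/

namespace Vale.Agent.P291.H.M

open MvPolynomial Vale.Agent.P291.G

variable {D : QData} (Z : Type)

/-- a factor `x b - x c` of `RR g` with `ι b = ι c` is mapped to `0` -/
theorem spread_inj {m : ℕ} {ι : B D → B D} (hι : ∀ b, (ι b).1 = b.1) (g : B D → Fin m)
    (h : kp D Z ι (RR D Z g) ≠ 0) : ∀ b c, ι b = ι c → g b = g c → b = c := by
  classical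
  intro b c h1 h2
  by_contra hbc
  apply h
  have h3 : b.1 = c.1 := by rw [← hι b, ← hι c, h1]
  rw [RR, dd, map_prod]
  refine Finset.prod_eq_zero (Finset.mem_univ b) ?_
  rw [map_prod]
  refine Finset.prod_eq_zero (Finset.mem_univ c) ?_
  rw [if_pos ⟨hbc, h3, h2⟩, map_sub, sub_eq_zero, xx, xx, kp, rename_X, rename_X, Sum.map_inl,
    Sum.map_inl, h1]

lemma Spread_typ_image {ι : B D → B D} (hι : ∀ b, (ι b).1 = b.1) (X : Finset (B D))
    (h : ∀ b ∈ X, ∀ c ∈ X, ι b = ι c → b = c) : typ D (X.image ι) = typ D X := by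
  funext i
  rw [typ, typ, Finset.filter_image, Finset.card_image_of_injOn]
  · simp only [hι]
  · intro b hb c hc hbc
    exact h b (Finset.mem_filter.1 hb).1 c (Finset.mem_filter.1 hc).1 hbc

lemma Spread_count {m : ℕ} {ι : B D → B D} (g : B D → Fin m)
    (hi : ∀ b c, ι b = ι c → g b = g c → b = c) (a : B D) (p : Fin m → Prop) [DecidablePred p]
    (hp : ∀ t, p t ↔ ∃ b, ι b = a ∧ g b = t) :
    ∑ t : Fin m, (if p t then (1 : ℤ) else 0) =
      ((Finset.univ.filter fun b : B D => ι b = a).card : ℤ) := by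
  classical
  have h1 : Finset.univ.filter p = (Finset.univ.filter fun b : B D => ι b = a).image g := by
    ext t
    simp only [Finset.mem_filter, Finset.mem_univ, true_and, Finset.mem_image, hp]
  rw [Finset.sum_ite, Finset.sum_const_zero, add_zero, Finset.sum_const, nsmul_eq_mul, mul_one,
    h1, Finset.card_image_of_injOn]
  intro b hb c hc hbc
  have hb' := (Finset.mem_filter.1 hb).2
  have hc' := (Finset.mem_filter.1 hc).2
  exact hi b c (hb'.trans hc'.symm) hbc

/-- Proof: let `A j = (fb g j).image ι` for `j < m`. As `ι` is injective on `fb g t` and preserves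
colours, `typ (A t) = typ (fb g t) = n' t`. Also `∑ t, ind (A t) = ∑ t, ind (C t)`: at `a` both
sides are the number of `b` with `ι b = a` (left: `b ↦ g b` is injective on `ι⁻¹(a)`; right:
`b ↦ g₀ b` is a bijection from `ι⁻¹(a)` to `{t | a ∈ C t}` by `Io`). Apply `meas_le`. -/
theorem spread {m : ℕ} {C : ℕ → Finset (B D)} (hC : ∀ j, C (j + 1) ⊆ C j) {ι : B D → B D}
    {g₀ : B D → Fin m} (hio : Io C ι g₀) {n n' : ℕ → D.I → ℕ} (hn : ∀ j, typ D (C j) = n j)
    (hle : meas m n' ≤ meas m n) (g : B D → Fin m)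
    (hg : ∀ t : Fin m, typ D (fb D g t) = n' t)
    (hi : ∀ b c, ι b = ι c → g b = g c → b = c) :
    (∀ t : Fin m, (fb D g t).image ι = C t) ∧ ∀ t : Fin m, n' t = n t := by
  set A : ℕ → Finset (B D) := fun j => if hj : j < m then (fb D g ⟨j, hj⟩).image ι else ∅ with hA
  have hAt : ∀ t : Fin m, A t = (fb D g t).image ι := fun t => by
    rw [hA]
    simp only [t.2, dif_pos, Fin.eta]
  have htyp : ∀ j, j < m → typ D (A j) = n' j := by
    intro j hj
    have h1 := hAt ⟨j, hj⟩
    simp only at h1
    rw [h1, Spread_typ_image hio.col, hg ⟨j, hj⟩]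
    intro b hb c hc hbc
    exact hi b c hbc (((mem_fb D g _ b).1 hb).trans ((mem_fb D g _ c).1 hc).symm)
  have hsum : ∑ j ∈ Finset.range m, ind D (A j) = ∑ j ∈ Finset.range m, ind D (C j) := by
    rw [Finset.sum_range, Finset.sum_range]
    funext a
    rw [Finset.sum_apply, Finset.sum_apply]
    simp only [ind]
    rw [Spread_count g hi a (fun t : Fin m => a ∈ A t), Spread_count g₀ hio.inj a
      (fun t : Fin m => a ∈ C t)]
    · intro t
      constructor
      · intro ha
        exact hio.surj a t ha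
      · rintro ⟨b, hb, hbt⟩
        have := hio.mem b
        rwa [hb, hbt] at this
    · intro t
      rw [hAt, Finset.mem_image]
      constructor
      · rintro ⟨b, hb, hba⟩
        exact ⟨b, hba, (mem_fb D g t b).1 hb⟩
      · rintro ⟨b, hba, hb⟩
        exact ⟨b, (mem_fb D g t b).2 hb, hba⟩
  have hmA : meas m (fun j => typ D (A j)) = meas m n' := by
    rw [meas, meas]
    refine Finset.sum_congr rfl fun j hj => ?_
    rw [htyp j (Finset.mem_range.1 hj)]
  have hmC : meas m (fun j => typ D (C j)) = meas m n := by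
    rw [meas, meas]
    refine Finset.sum_congr rfl fun j _ => ?_
    rw [hn j]
  have key := (meas_le m A C (fun j _ => hC j) hsum).2 (by rw [hmA, hmC]; exact hle)
  have h1 : ∀ t : Fin m, (fb D g t).image ι = C t := fun t => by
    rw [← hAt t]
    exact key t t.2
  refine ⟨h1, fun t => ?_⟩
  rw [← htyp t t.2, key t t.2, hn t]

end Vale.Agent.P291.H.M
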