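import Vale.Agent.P291.M.Basic

set_option autoImplicit false
set_option linter.unusedSectionVars false

/-! Straightening of all sequences of types. -/

namespace Vale.Agent.P291.H.M

open MvPolynomial Vale.Agent.P291.G

variable {D : QData} {Z : Type} (w : Wts D Z)

/-- `tot` is preserved by updates with the same sum (see `seqOK_update`) -/
lemma tot_update {m : ℕ} {n : ℕ → D.I → ℕ} (h : tot D m n) (i : ℕ) (hi : i + 1 < m)
    (a b : D.I → ℕ) (hab : a + b = n i + n (i + 1)) :
    tot D m (Function.update (Function.update n i a) (i + 1) b) := by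
  obtain ⟨h1, h2⟩ := h
  refine ⟨fun j hj => ?_, ?_⟩
  · rw [straight_upd_ne n i a b (by omega) (by omega)]
    exact h1 j hj
  · rw [straight_sum_split _ hi] at h2 ⊢
    rw [straight_upd_left, straight_upd_right, hab, ← h2]
    refine congrArg _ (Finset.sum_congr rfl fun j hj => ?_)
    rw [Finset.mem_erase, Finset.mem_erase] at hj
    rw [straight_upd_ne n i a b hj.2.1 hj.1]

/-- Proof: strong induction on `meas m n`, like the proof of `straighten` in `H/Straight.lean` (but
easier, as no sequence is excluded): if `n` is nested, it is in the supremum. Otherwise there is `i`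
with `¬ n (i + 1) ≤ n i`, so `i + 1 < m`; use `UU_update` and `pair_mul` (`ε i ≤ ε (i + 1)` as
`ε = ep 1`) with `n1 = n i`, `n2 = n (i + 1)`: the sequences with `n i`, `n (i + 1)` replaced by
`n1'`, `s`, where `s ≤ n i`, `s ≤ n (i + 1)`, `n1' + s = n i + n (i + 1)`, satisfy `tot`
(`tot_update`) and have smaller measure (`meas_update`; `s ≠ n (i + 1)`). -/
theorem strAll {m : ℕ} (n : ℕ → D.I → ℕ) (h : tot D m n) :
    UU w (ep 1) m n ≤ ⨆ n' : ℕ → D.I → ℕ, ⨆ _ : seqM D m (meas m n) n', UU w (ep 1) m n' := by
  induction hk : meas m n using Nat.strong_induction_on generalizing n with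
  | _ k ih =>
    subst hk
    by_cases hne : ∀ j, n (j + 1) ≤ n j
    · exact le_iSup₂_of_le n ⟨h, hne, le_rfl⟩ le_rfl
    · push Not at hne
      obtain ⟨i, hi⟩ := hne
      have him : i + 1 < m := by
        by_contra hc
        apply hi
        rw [h.1 (i + 1) (by omega)]
        exact fun k => Nat.zero_le _
      have hupd : Function.update (Function.update n i (n i)) (i + 1) (n (i + 1)) = n := by
        rw [Function.update_eq_self, Function.update_eq_self]
      have h12 : ep 1 i ≤ ep 1 (i + 1) := by
        unfold ep
        split_ifs <;> omega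
      have key : U w (ep 1 i) (n i) * U w (ep 1 (i + 1)) (n (i + 1)) ≤
          (⨆ n' : ℕ → D.I → ℕ, ⨆ _ : seqM D m (meas m n) n', UU w (ep 1) m n') /
            ∏ j ∈ ((Finset.range m).erase i).erase (i + 1), U w (ep 1 j) (n j) := by
        refine pair_mul w h12 (n i) (n (i + 1)) _ fun n1' s hs1 hs2 hs3 hs4 => ?_
        rw [Submodule.le_div_iff_mul_le, ← UU_update w (ep 1) m n i him n1' s]
        have hsne : s ≠ n (i + 1) := fun h => hi (h ▸ hs1)
        have hlt : ∑ k, s k < ∑ k, n (i + 1) k := by
          refine lt_of_le_of_ne (Finset.sum_le_sum fun k _ => hs2 k) fun he => hsne ?_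
          funext k
          exact (Finset.sum_eq_sum_iff_of_le fun k _ => hs2 k).1 he k (Finset.mem_univ k)
        have hmeas := meas_update m n i him n1' s hs4
        have hmlt : meas m (Function.update (Function.update n i n1') (i + 1) s) <
            meas m n := by omega
        refine (ih _ hmlt _ (tot_update h i him n1' s hs4) rfl).trans ?_
        refine iSup_mono fun n' => iSup_mono' fun h' => ⟨?_, le_rfl⟩
        exact ⟨h'.1, h'.2.1, h'.2.2.trans hmlt.le⟩
      rw [Submodule.le_div_iff_mul_le, ← UU_update w (ep 1) m n i him, hupd] at key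
      exact key

end Vale.Agent.P291.H.M
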