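import Vale.Agent.P291.M.Basic

set_option autoImplicit false
set_option linter.unusedSectionVars false

/-! The substitution `th`. -/

namespace Vale.Agent.P291.H.M

open MvPolynomial Vale.Agent.P291.G

variable {D : QData} {Z : Type}

/-- on fibres the sum of the power sums is the power sum of all marks -/
theorem th_fb {m : ℕ} (g : B D → Fin m) (Q : PP D Z m) :
    evA D Z (fb D g) (th D Z m Q) = evA D Z (fb D g) Q := by
  have h : (evA D Z (fb D g)).comp (th D Z m) = evA D Z (fb D g) := by
    refine MvPolynomial.algHom_ext fun v => ?_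
    rcases v with p | p | z
    · simp [evA, th]
    · rw [AlgHom.comp_apply, th, aeval_X]
      simp only [Sum.elim_inr, Sum.elim_inl, map_sum]
      simp only [evA, aeval_X, Sum.elim_inr, Sum.elim_inl, ps, fb]
      exact Finset.sum_fiberwise _ _ _
    · simp [evA, th]
  exact DFunLike.congr_fun h Q

theorem theta_sub {C : ℕ → Finset (B D)} (hC : ∀ j, C (j + 1) ⊆ C j) (j : ℕ) : C j ⊆ C 0 := by
  induction j with
  | zero => exact Finset.Subset.refl _
  | succ k ih => exact (hC k).trans ih

theorem theta_kp_xx (ι : B D → B D) (b : B D) : kp D Z ι (xx D Z b) = xx D Z (ι b) := by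
  simp [kp, xx]

theorem theta_kp_ps (ι : B D → B D) (A : Finset (B D)) (i : D.I) (j : ℕ) :
    kp D Z ι (ps D Z A i j) = ∑ b ∈ A, if b.1 = i then xx D Z (ι b) ^ j else 0 := by
  rw [ps, map_sum]
  refine Finset.sum_congr rfl fun b _ => ?_
  split_ifs
  · rw [map_pow, theta_kp_xx]
  · rw [map_zero]

theorem theta_sum {m : ℕ} {C : ℕ → Finset (B D)} {ι : B D → B D}
    {g₀ : B D → Fin m} (hio : Io C ι g₀) (F : B D → S D Z) :
    ∑ b, F (ι b) = ∑ t : Fin m, ∑ a ∈ C t, F a := by
  rw [← Finset.sum_fiberwise (s := Finset.univ) (g := g₀)]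
  refine Finset.sum_congr rfl fun t _ => ?_
  refine Finset.sum_bij (fun b _ => ι b) ?_ ?_ ?_ ?_
  · intro b hb
    have h1 := hio.mem b
    rw [(Finset.mem_filter.mp hb).2] at h1
    exact h1
  · intro b hb b' hb' h
    exact hio.inj b b' h (((Finset.mem_filter.mp hb).2).trans ((Finset.mem_filter.mp hb').2).symm)
  · intro a ha
    obtain ⟨b, h1, h2⟩ := hio.surj a t ha
    exact ⟨b, Finset.mem_filter.mpr ⟨Finset.mem_univ _, h2⟩, h1⟩
  · intro b _
    rfl

/-- both sides are algebra homomorphisms; `kp ι (ps (C t) i j) = ps (C t) i j` as `C t ⊆ C 0`, and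
`kp ι (ps univ i j) = ∑ b, if b.1 = i then xx (ι b) ^ j = ∑ t, ps (C t) i j` by the bijection
`b ↦ (ι b, g₀ b)` -/
theorem th_C {m : ℕ} {C : ℕ → Finset (B D)} (hC : ∀ j, C (j + 1) ⊆ C j) {ι : B D → B D}
    {g₀ : B D → Fin m} (hio : Io C ι g₀) (Q : PP D Z m) :
    kp D Z ι (evA D Z (fun t : Fin m => C t) Q) =
      evA D Z (fun t : Fin m => C t) (th D Z m Q) := by
  have h : (kp D Z ι).comp (evA D Z (fun t : Fin m => C t)) =
      (evA D Z (fun t : Fin m => C t)).comp (th D Z m) := by
    refine MvPolynomial.algHom_ext fun v => ?_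
    rcases v with ⟨t, i, j⟩ | ⟨i, j⟩ | z
    · rw [AlgHom.comp_apply, AlgHom.comp_apply, th, aeval_X, evA, aeval_X]
      simp only [Sum.elim_inl]
      rw [aeval_X]
      simp only [Sum.elim_inl]
      rw [theta_kp_ps, ps]
      refine Finset.sum_congr rfl fun b hb => ?_
      rw [hio.fix b (theta_sub hC _ hb)]
    · rw [AlgHom.comp_apply, AlgHom.comp_apply, th, aeval_X, evA, aeval_X]
      simp only [Sum.elim_inr, Sum.elim_inl, map_sum]
      simp only [aeval_X, Sum.elim_inl]
      rw [theta_kp_ps]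
      have h1 : ∀ b : B D, (if b.1 = i then xx D Z (ι b) ^ j else 0) =
          (fun a : B D => if a.1 = i then xx D Z a ^ j else 0) (ι b) := by
        intro b
        simp only [hio.col b]
      rw [Finset.sum_congr rfl fun b _ => h1 b]
      exact theta_sum hio (fun a : B D => if a.1 = i then xx D Z a ^ j else 0)
    · simp [evA, th, kp]
  exact DFunLike.congr_fun h Q

end Vale.Agent.P291.H.M
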