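import Vale.Agent.P291.M.AFform

set_option autoImplicit false
set_option linter.unusedSectionVars false

/-! The products of slot spaces in terms of power sums. -/

namespace Vale.Agent.P291.H.M

open MvPolynomial Vale.Agent.P291.G

variable {D : QData} {Z : Type} (w : Wts D Z)

/-- Induction principle for finite products of submodules of a commutative algebra
(induction on `m`, `Finset.prod_range_succ`, `Submodule.mul_induction_on`; strengthen the
statement by an additional factor if needed). -/
theorem prod_ind {R : Type} [CommRing R] [Algebra ℂ R] (m : ℕ) (M : ℕ → Submodule ℂ R)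
    (P : R → Prop) (hadd : ∀ x y, P x → P y → P (x + y)) (hsmul : ∀ (c : ℂ) x, P x → P (c • x))
    (hpure : ∀ y : ℕ → R, (∀ j, j < m → y j ∈ M j) → P (∏ j ∈ Finset.range m, y j)) :
    ∀ x ∈ ∏ j ∈ Finset.range m, M j, P x := by
  induction m generalizing P with
  | zero =>
    intro x hx
    rw [Finset.range_zero, Finset.prod_empty, Submodule.mem_one] at hx
    obtain ⟨c, rfl⟩ := hx
    rw [Algebra.algebraMap_eq_smul_one]
    refine hsmul c _ ?_
    have h1 := hpure (fun _ => 0) fun j hj => absurd hj (Nat.not_lt_zero j)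
    rwa [Finset.range_zero, Finset.prod_empty] at h1
  | succ m ih =>
    intro x hx
    rw [Finset.prod_range_succ] at hx
    refine Submodule.mul_induction_on hx (fun a ha b hb => ?_) hadd
    refine ih (fun z => ∀ b ∈ M m, P (z * b)) ?_ ?_ ?_ a ha b hb
    · intro x y hx hy b hb
      rw [add_mul]
      exact hadd _ _ (hx b hb) (hy b hb)
    · intro c x hx b hb
      rw [smul_mul_assoc]
      exact hsmul c _ (hx b hb)
    · intro y hy b hb
      have h1 := hpure (Function.update y m b) fun j hj => by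
        by_cases hjm : j = m
        · subst hjm
          rwa [Function.update_self]
        · rw [Function.update_of_ne hjm]
          exact hy j (by omega)
      rw [Finset.prod_range_succ, Function.update_self] at h1
      have h2 : ∏ j ∈ Finset.range m, Function.update y m b j = ∏ j ∈ Finset.range m, y j := by
        refine Finset.prod_congr rfl fun j hj => ?_
        rw [Function.update_of_ne (Finset.mem_range.1 hj).ne]
      rwa [h2] at h1

lemma UUform_prod_single {R G J : Type} [CommRing R] [AddCommMonoid G] (s : Finset J)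
    (a : J → G) (b : J → R) :
    ∏ t ∈ s, AddMonoidAlgebra.single (a t) (b t) =
      AddMonoidAlgebra.single (∑ t ∈ s, a t) (∏ t ∈ s, b t) := by
  classical
  induction s using Finset.induction_on with
  | empty =>
    rw [Finset.prod_empty, Finset.sum_empty, Finset.prod_empty]
    rfl
  | insert t s ht ih =>
    rw [Finset.prod_insert ht, Finset.sum_insert ht, Finset.prod_insert ht, ih,
      AddMonoidAlgebra.single_mul_single]

lemma UUform_XQ_smul (ε : ℕ → ℕ) {m : ℕ} (n : ℕ → D.I → ℕ) (c : ℂ) (Q : PP D Z m) :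
    XQ w ε n (c • Q) = c • XQ w ε n Q := by
  classical
  rw [XQ, XQ, Finset.smul_sum]
  refine Finset.sum_congr rfl fun A _ => ?_
  rw [smul_ite, smul_zero, map_smul, smul_mul_assoc, AddMonoidAlgebra.smul_single]

lemma UUform_evA_rename {m : ℕ} (A : Fin m → Finset (B D)) (t : Fin m) (Q : PP D Z 1) :
    evA D Z A (rename (Sum.map (fun p : Fin 1 × D.I × ℕ => (t, p.2)) id) Q) =
      evA D Z (fun _ => A t) Q := by
  rw [evA, evA, aeval_rename]
  congr 2
  funext p
  rcases p with p | p | p <;> rfl

lemma UUform_slot_prod (ε : ℕ → ℕ) (m : ℕ) (φ : ℕ → Finset (B D) → S D Z) :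
    ∏ j ∈ Finset.range m, slot w (ε j) (φ j) =
      ∑ A : Fin m → Finset (B D), AddMonoidAlgebra.single (∑ t, ind D (A t))
        (∏ t : Fin m, (φ t (A t) * (e w (A t) * zs w (A t) ^ ε t))) := by
  classical
  have h1 : ∀ j, slot w (ε j) (φ j) = ∑ A, AddMonoidAlgebra.single (ind D A)
      (φ j A * (e w A * zs w A ^ ε j)) := fun j => rfl
  rw [Finset.prod_range fun j => slot w (ε j) (φ j)]
  rw [Finset.prod_congr rfl fun t (_ : t ∈ (Finset.univ : Finset (Fin m))) => h1 t,
    Finset.prod_univ_sum, Fintype.piFinset_univ]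
  exact Finset.sum_congr rfl fun A _ => UUform_prod_single _ _ _

/-- Proof: `prod_ind` with `P X = ∃ Q, X = XQ w ε n Q` (`XQ_add`, `XQ (C c * Q) = c • XQ Q`). A pure
product `∏ j ∈ range m, slot w (ε j) (φ j)` (the `U w ε n` are images of the `AF n` under `slot`)
is expanded by `Finset.prod_univ_sum` (`Finset.prod_range` first, to get a product over `Fin m`):
it is `∑ A : Fin m → Finset (B D), single (∑ t, ind (A t)) (∏ t, φ t (A t) * (e * zs ^ ε))`. Use
`AF_form` and `Q = ∏ t, rename (Sum.map (fun p => (t, p.2)) id) (Q_t)`; the terms with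
`typ (A t) ≠ n t` for some `t` vanish. -/
theorem exists_XQ (ε : ℕ → ℕ) (m : ℕ) (n : ℕ → D.I → ℕ)
    {X : AddMonoidAlgebra (S D Z) (B D → ℤ)} (hX : X ∈ UU w ε m n) :
    ∃ Q : PP D Z m, X = XQ w ε n Q := by
  classical
  refine prod_ind m (fun j => U w (ε j) (n j)) (fun X => ∃ Q : PP D Z m, X = XQ w ε n Q)
    ?_ ?_ ?_ X hX
  · rintro _ _ ⟨Q, rfl⟩ ⟨Q', rfl⟩
    exact ⟨Q + Q', (XQ_add w ε n Q Q').symm⟩
  · rintro c _ ⟨Q, rfl⟩
    exact ⟨c • Q, (UUform_XQ_smul w ε n c Q).symm⟩
  · intro y hy
    have h1 : ∀ j, ∃ φ : Finset (B D) → S D Z, j < m → φ ∈ AF D Z (n j) ∧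
        slot w (ε j) φ = y j := by
      intro j
      by_cases hj : j < m
      · obtain ⟨φ, hφ, h⟩ := hy j hj
        exact ⟨φ, fun _ => ⟨hφ, h⟩⟩
      · exact ⟨0, fun h => absurd h hj⟩
    choose φ hφ using h1
    have h2 : ∀ t : Fin m, ∃ Q : PP D Z 1, ∀ A, typ D A = n t →
        φ t A = Dl D Z A * evA D Z (fun _ => A) Q := fun t => AF_form D Z (hφ t t.2).1
    choose Q hQ using h2
    refine ⟨∏ t : Fin m, rename (Sum.map (fun p : Fin 1 × D.I × ℕ => (t, p.2)) id) (Q t), ?_⟩
    rw [Finset.prod_congr rfl fun j hj => ((hφ j (Finset.mem_range.1 hj)).2).symm,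
      UUform_slot_prod, XQ]
    refine Finset.sum_congr rfl fun A _ => ?_
    by_cases hA : ∀ t : Fin m, typ D (A t) = n t
    · rw [if_pos hA, map_prod, ← Finset.prod_mul_distrib]
      congr 1
      refine Finset.prod_congr rfl fun t _ => ?_
      rw [UUform_evA_rename, hQ t (A t) (hA t)]
      ring
    · rw [if_neg hA]
      push Not at hA
      obtain ⟨t, ht⟩ := hA
      rw [Finset.prod_eq_zero (Finset.mem_univ t), AddMonoidAlgebra.single_zero]
      rw [(hφ t t.2).1.2 (A t) ht, zero_mul]

end Vale.Agent.P291.H.M
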