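import Vale.Agent.P291.M.AFform

set_option autoImplicit false
set_option linter.unusedSectionVars false

/-! The elements `XQ` are in the products of slot spaces. -/

namespace Vale.Agent.P291.H.M

open MvPolynomial Vale.Agent.P291.G

section
variable (D : QData) (Z : Type)

/-- put the slot variables of a one slot polynomial in the slot `t` -/
noncomputable def UUgr_inc {m : ℕ} (t : Fin m) : PP D Z 1 →ₐ[ℂ] PP D Z m :=
  rename (Sum.map (fun p => (t, p.2)) id)

lemma UUgr_evA_inc {m : ℕ} (A : Fin m → Finset (B D)) (t : Fin m) (q : PP D Z 1) :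
    evA D Z A (UUgr_inc D Z t q) = evA D Z (fun _ => A t) q := by
  rw [UUgr_inc, evA, evA, aeval_rename]
  congr 2
  funext v
  rcases v with p | y
  · rfl
  · rfl

/-- product form polynomials -/
def UUgr_PF (m : ℕ) : Set (PP D Z m) :=
  {Q | ∃ q : Fin m → PP D Z 1, Q = ∏ t, UUgr_inc D Z t (q t)}

lemma UUgr_mul_inc {m : ℕ} (t : Fin m) (r : PP D Z 1) {Q : PP D Z m} (h : Q ∈ UUgr_PF D Z m) :
    Q * UUgr_inc D Z t r ∈ UUgr_PF D Z m := by
  obtain ⟨q, rfl⟩ := h
  refine ⟨fun s => q s * if s = t then r else 1, ?_⟩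
  have h1 : ∀ s : Fin m, UUgr_inc D Z s (q s * if s = t then r else 1) =
      UUgr_inc D Z s (q s) * if s = t then UUgr_inc D Z t r else 1 := by
    intro s
    rw [map_mul]
    split_ifs with hs
    · rw [hs]
    · rw [map_one]
  rw [Finset.prod_congr rfl fun s _ => h1 s, Finset.prod_mul_distrib, Finset.prod_ite_eq']
  rw [if_pos (Finset.mem_univ t)]

lemma UUgr_span {m : ℕ} (hm : 1 ≤ m) (Q : PP D Z m) :
    Q ∈ Submodule.span ℂ (UUgr_PF D Z m) := by
  induction Q using MvPolynomial.induction_on with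
  | C c =>
    have h1 : (C c : PP D Z m) = c • (1 : PP D Z m) := by
      rw [MvPolynomial.smul_eq_C_mul, mul_one]
    rw [h1]
    refine Submodule.smul_mem _ _ (Submodule.subset_span ⟨fun _ => 1, ?_⟩)
    simp
  | add p q hp hq => exact Submodule.add_mem _ hp hq
  | mul_X p v hp =>
    obtain ⟨t, r, hr⟩ : ∃ (t : Fin m) (r : PP D Z 1), (X v : PP D Z m) = UUgr_inc D Z t r := by
      rcases v with ⟨t, i, j⟩ | y
      · refine ⟨t, X (Sum.inl (0, i, j)), ?_⟩
        rw [UUgr_inc, rename_X]
        rfl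
      · refine ⟨⟨0, hm⟩, X (Sum.inr y), ?_⟩
        rw [UUgr_inc, rename_X]
        rfl
    rw [hr]
    refine Submodule.span_induction (p := fun x _ => x * UUgr_inc D Z t r ∈
      Submodule.span ℂ (UUgr_PF D Z m)) ?_ ?_ ?_ ?_ hp
    · intro x hx
      exact Submodule.subset_span (UUgr_mul_inc D Z t r hx)
    · rw [zero_mul]
      exact Submodule.zero_mem _
    · intro x y _ _ hx hy
      rw [add_mul]
      exact Submodule.add_mem _ hx hy
    · intro a x _ hx
      rw [smul_mul_assoc]
      exact Submodule.smul_mem _ _ hx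

end

variable {D : QData} {Z : Type} (w : Wts D Z)

lemma UUgr_prod_mem {R A : Type} [CommSemiring R] [CommSemiring A] [Algebra R A] (m : ℕ)
    (x : ℕ → A) (G : ℕ → Submodule R A) (h : ∀ j, j < m → x j ∈ G j) :
    (∏ j ∈ Finset.range m, x j) ∈ ∏ j ∈ Finset.range m, G j := by
  induction m with
  | zero =>
    rw [Finset.range_zero, Finset.prod_empty, Finset.prod_empty]
    exact Submodule.one_le.1 le_rfl
  | succ m ih =>
    rw [Finset.prod_range_succ, Finset.prod_range_succ]
    exact Submodule.mul_mem_mul (ih fun j hj => h j (by omega)) (h m (by omega))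

lemma UUgr_XQ_smul (ε : ℕ → ℕ) {m : ℕ} (n : ℕ → D.I → ℕ) (c : ℂ) (Q : PP D Z m) :
    XQ w ε n (c • Q) = c • XQ w ε n Q := by
  classical
  rw [XQ, XQ, Finset.smul_sum]
  refine Finset.sum_congr rfl fun A _ => ?_
  by_cases h : ∀ t : Fin m, typ D (A t) = n t
  · rw [if_pos h, if_pos h, map_smul, smul_mul_assoc, AddMonoidAlgebra.smul_single]
  · rw [if_neg h, if_neg h, smul_zero]

open Classical in
lemma UUgr_pf (ε : ℕ → ℕ) {m : ℕ} (n : ℕ → D.I → ℕ) (C : ℕ → Finset (B D))
    (hC : ∀ j, j < m → typ D (C j) = n j) {Q : PP D Z m} (hQ : Q ∈ UUgr_PF D Z m) :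
    (XQ w ε n Q, evA D Z (fun t : Fin m => C t) Q * ∏ t : Fin m, Dl D Z (C t)) ∈
      ∏ j ∈ Finset.range m, Gr w (ε j) (n j) (C j) := by
  obtain ⟨q, rfl⟩ := hQ
  let φ : ℕ → Finset (B D) → S D Z := fun j A => if typ D A = n j then
    Dl D Z A * evA D Z (fun _ => A) (if h : j < m then q ⟨j, h⟩ else 0) else 0
  have hφ : ∀ j, φ j ∈ AF D Z (n j) := fun j => AF_of D Z (n j) _
  have hφt : ∀ (t : Fin m) (A : Finset (B D)), φ t A = if typ D A = n t then
      Dl D Z A * evA D Z (fun _ => A) (q t) else 0 := by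
    intro t A
    simp only [φ, t.2, dif_pos, Fin.eta]
  have key : (XQ w ε n (∏ t, UUgr_inc D Z t (q t)), evA D Z (fun t : Fin m => C t)
      (∏ t, UUgr_inc D Z t (q t)) * ∏ t : Fin m, Dl D Z (C t)) =
      ∏ j ∈ Finset.range m, (slot w (ε j) (φ j), φ j (C j)) := by
    rw [Finset.prod_range]
    refine Prod.ext ?_ ?_
    · rw [Prod.fst_prod]
      have h1 : ∀ t : Fin m, slot w (ε t) (φ t) = ∑ A, AddMonoidAlgebra.single (ind D A)
        (φ t A * (e w A * zs w A ^ ε t)) := fun t => rfl
      rw [Finset.prod_congr rfl fun t _ => h1 t, Fintype.prod_sum, XQ]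
      refine Finset.sum_congr rfl fun A _ => ?_
      rw [AddMonoidAlgebra.prod_single]
      by_cases h : ∀ t : Fin m, typ D (A t) = n t
      · rw [if_pos h]
        congr 1
        rw [map_prod, ← Finset.prod_mul_distrib]
        refine Finset.prod_congr rfl fun t _ => ?_
        rw [UUgr_evA_inc, hφt, if_pos (h t)]
        ring
      · rw [if_neg h]
        push Not at h
        obtain ⟨t, ht⟩ := h
        rw [Finset.prod_eq_zero (Finset.mem_univ t), AddMonoidAlgebra.single_zero]
        rw [hφt, if_neg ht, zero_mul]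
    · rw [Prod.snd_prod]
      change evA D Z (fun t : Fin m => C t) (∏ t, UUgr_inc D Z t (q t)) *
        ∏ t : Fin m, Dl D Z (C t) = ∏ t : Fin m, φ t (C t)
      rw [map_prod, ← Finset.prod_mul_distrib]
      refine Finset.prod_congr rfl fun t _ => ?_
      rw [UUgr_evA_inc, hφt, if_pos (hC t t.2)]
      ring
  rw [key]
  exact UUgr_prod_mem m _ _ fun j _ => ⟨φ j, hφ j, rfl⟩

/-- Proof: the set of the `Q` with this property is closed under addition and under multiplication
by constants, so we may assume that `Q` is a monomial (`MvPolynomial.induction_on'''` or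
`MvPolynomial.as_sum`). A monomial is of the form `∏ t : Fin m, rename (Sum.map (fun p => (t, p.2))
id) (Q_t)` with `Q_t : PP D Z 1` (put the global power sums and the flavors in the slot `0`, `1 ≤ m`);
it is enough that the monomials (and even: that the variables, with products of
elements of this form again of this form) are of this form. For such a `Q` the pair is
`∏ j ∈ range m, (slot w (ε j) (φ j), φ j (C j))` where `φ j A = if typ A = n j then Dl A *
evA (fun _ => A) (Q_j) else 0` is in `AF (n j)` by `AF_of` (expand the product of the slots with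
`Finset.prod_univ_sum`, after `Finset.prod_range`). -/
theorem XQ_mem_Gr (ε : ℕ → ℕ) {m : ℕ} (hm : 1 ≤ m) (n : ℕ → D.I → ℕ) (C : ℕ → Finset (B D))
    (hC : ∀ j, j < m → typ D (C j) = n j) (Q : PP D Z m) :
    (XQ w ε n Q, evA D Z (fun t : Fin m => C t) Q * ∏ t : Fin m, Dl D Z (C t)) ∈
      ∏ j ∈ Finset.range m, Gr w (ε j) (n j) (C j) := by
  refine Submodule.span_induction (p := fun Q _ => (XQ w ε n Q,
    evA D Z (fun t : Fin m => C t) Q * ∏ t : Fin m, Dl D Z (C t)) ∈
      ∏ j ∈ Finset.range m, Gr w (ε j) (n j) (C j)) ?_ ?_ ?_ ?_ (UUgr_span D Z hm Q)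
  · intro x hx
    exact UUgr_pf w ε n C hC hx
  · have h0 : XQ w ε n (0 : PP D Z m) = 0 := by
      have := UUgr_XQ_smul w ε n 0 (0 : PP D Z m)
      rwa [zero_smul, zero_smul] at this
    rw [h0, map_zero, zero_mul]
    exact Submodule.zero_mem _
  · intro x y _ _ hx hy
    have h1 := Submodule.add_mem _ hx hy
    rw [XQ_add, map_add, add_mul]
    exact h1
  · intro a x _ hx
    have h1 := Submodule.smul_mem _ a hx
    rw [UUgr_XQ_smul, map_smul, smul_mul_assoc]
    exact h1

/-- If every `n j`, `j < m`, is the type of a subset use `XQ_mem_Gr` and `graph_fst`, otherwise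
`XQ = 0`. -/
theorem XQ_mem (ε : ℕ → ℕ) {m : ℕ} (hm : 1 ≤ m) (n : ℕ → D.I → ℕ) (Q : PP D Z m) :
    XQ w ε n Q ∈ UU w ε m n := by
  classical
  by_cases h : ∀ j, j < m → ∃ A : Finset (B D), typ D A = n j
  · choose! C hC using h
    exact graph_fst w ε m n C (XQ_mem_Gr w ε hm n C hC Q)
  · push Not at h
    obtain ⟨j, hj, hj2⟩ := h
    have h0 : XQ w ε n Q = 0 := by
      rw [XQ]
      refine Finset.sum_eq_zero fun A _ => ?_
      rw [if_neg]
      intro h2
      exact hj2 (A ⟨j, hj⟩) (h2 ⟨j, hj⟩)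
    rw [h0]
    exact Submodule.zero_mem _

end Vale.Agent.P291.H.M
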