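import Vale.Agent.P291.M.Basic
import Vale.Agent.P291.H.BClass
import Vale.Agent.P291.J.PartI

set_option autoImplicit false
set_option linter.unusedSectionVars false

/-! The weights of `N` with all flavors. -/

namespace Vale.Agent.P291.H.M

open MvPolynomial Vale.Agent.P291.G

variable (D : QData)

/-- evaluation: gauge variables `↦ 0`, labels `↦ 1` -/
noncomputable def wX_ev : S D (ZZ D) →ₐ[ℂ] ℂ :=
  aeval (Sum.elim (fun _ => 0) (Sum.elim (fun _ => 1) fun _ => 0))

lemma wX_ev_xq (b : B D) : wX_ev D (xq D b) = 0 := by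
  rw [wX_ev, xq, xx, aeval_X]; rfl

lemma wX_ev_tv (a : D.A) : wX_ev D (tv D a) = 1 := by
  rw [wX_ev, tv, aeval_X]; rfl

lemma wX_ev_zv (i : D.I) (k : Fin (D.w i)) : wX_ev D (zv D i k) = 1 := by
  rw [wX_ev, zv, aeval_X]; rfl

lemma wX_ev_hq (b c : B D) : wX_ev D (hq D b c 0) = 1 := by
  rw [hq, map_prod]
  refine Finset.prod_eq_one fun a _ => ?_
  rw [map_add, map_add, map_sub, wX_ev_xq, wX_ev_xq, wX_ev_tv, map_zero]
  norm_num

lemma wX_ev_zq (b : B D) : wX_ev D (zq D b 0) = 1 := by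
  rw [zq, map_prod]
  refine Finset.prod_eq_one fun k _ => ?_
  rw [map_add, map_sub, wX_ev_xq, wX_ev_zv, map_zero]
  norm_num

lemma wX_ev_kp (ι : B D → B D) (f : S D (ZZ D)) : wX_ev D (kp D (ZZ D) ι f) = wX_ev D f := by
  have h : (wX_ev D).comp (kp D (ZZ D) ι) = wX_ev D := by
    refine MvPolynomial.algHom_ext fun i => ?_
    rw [AlgHom.comp_apply, kp, rename_X, wX_ev, aeval_X, aeval_X]
    rcases i with b | z <;> rfl
  exact DFunLike.congr_fun h f

lemma hq_ne {b c : B D} (_h : b ≠ c) : hq D b c 0 ≠ 0 := by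
  intro h0
  have h1 := wX_ev_hq D b c
  rw [h0, map_zero] at h1
  exact zero_ne_one h1

lemma zq_ne (b : B D) : zq D b 0 ≠ 0 := by
  intro h0
  have h1 := wX_ev_zq D b
  rw [h0, map_zero] at h1
  exact zero_ne_one h1

/-- the weights of `N` for the maximal flavor torus -/
noncomputable def wX : Wts D (ZZ D) where
  h b c := hq D b c 0
  z b := zq D b 0
  h_act := fun σ b c => act_hq D σ b c (map_zero _)
  z_act := fun σ b => act_zq D σ b (map_zero _)
  h_ne := fun _ _ h => hq_ne D h
  z_ne := fun b => zq_ne D b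

/-- the labels -/
noncomputable def lab_wX : Vale.Agent.P291.J.Lab (wX D) where
  ta := tv D
  tz := zv D
  hta := fun C _ => Vale.Agent.P291.J.tr_inr D (ZZ D) C _
  htz := fun C _ _ => Vale.Agent.P291.J.tr_inr D (ZZ D) C _
  hh := by
    intro b c
    change hq D b c 0 = _
    rw [hq]
    refine Finset.prod_congr rfl fun a _ => ?_
    exact add_zero _
  hz := by
    intro b
    change zq D b 0 = _
    rw [zq]
    refine Finset.prod_congr rfl fun k _ => ?_
    exact add_zero _

/-- `kp ι (x c - x b + t a) = x (ι c) - x (ι b) + t a ≠ 0` -/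
theorem nv_wX : NV (wX D) where
  h_ne := by
    intro ι _ b c _ h0
    have h1 := wX_ev_kp D ι (hq D b c 0)
    rw [wX_ev_hq] at h1
    change kp D (ZZ D) ι (hq D b c 0) = 0 at h0
    rw [h0, map_zero] at h1
    exact zero_ne_one h1
  z_ne := by
    intro ι _ b h0
    have h1 := wX_ev_kp D ι (zq D b 0)
    rw [wX_ev_zq] at h1
    change kp D (ZZ D) ι (zq D b 0) = 0 at h0
    rw [h0, map_zero] at h1
    exact zero_ne_one h1

end Vale.Agent.P291.H.M
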