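import Vale.Agent.P291.M.UUform
import Vale.Agent.P291.M.UUgr
import Vale.Agent.P291.M.Diag
import Vale.Agent.P291.M.Iota
import Vale.Agent.P291.M.KV
import Vale.Agent.P291.M.Theta
import Vale.Agent.P291.M.StrAll

set_option autoImplicit false
set_option linter.unusedSectionVars false

/-! The zero-diagonal theorem: one step. -/

namespace Vale.Agent.P291.H.M

open MvPolynomial Vale.Agent.P291.G

variable {D : QData} {Z : Type} (w : Wts D Z)

/-- the trivial sequence has measure `0` -/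
lemma ZDstep_meas_seqT (m : ℕ) : meas m (seqT D 1) = 0 := by
  rw [meas]
  refine Finset.sum_eq_zero fun j _ => ?_
  rcases Nat.eq_zero_or_pos j with rfl | hj
  · rw [zero_mul]
  · have h : seqT D 1 j = 0 := if_neg (by omega)
    rw [h]
    simp

/-- the moved sequences are total and have smaller measure -/
lemma ZDstep_move {m M : ℕ} {n : ℕ → D.I → ℕ} (hn : tot D m n) (hM : meas m n = M + 1) (i : ℕ)
    (hi : i + 1 < m) (δ : D.I → ℕ) (hδ : δ ≠ 0) (hle : δ ≤ n (i + 1)) :
    tot D m (move n i δ) ∧ meas m (move n i δ) ≤ M := by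
  have hab : n i + δ + (n (i + 1) - δ) = n i + n (i + 1) := by
    rw [add_assoc, add_tsub_cancel_of_le hle]
  refine ⟨tot_update hn i hi _ _ hab, ?_⟩
  have h1 := meas_update m n i hi (n i + δ) (n (i + 1) - δ) hab
  have h2 : ∑ k, (n (i + 1) - δ) k < ∑ k, n (i + 1) k := by
    obtain ⟨k, hk⟩ := Function.ne_iff.1 hδ
    have hk' : 0 < δ k := Nat.pos_of_ne_zero hk
    refine Finset.sum_lt_sum (fun k _ => ?_) ⟨k, Finset.mem_univ k, ?_⟩
    · rw [Pi.sub_apply]
      exact Nat.sub_le _ _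
    · rw [Pi.sub_apply]
      exact Nat.sub_lt (lt_of_lt_of_le hk' (hle k)) hk'
  have h3 : meas m (move n i δ) = meas m (Function.update (Function.update n i (n i + δ)) (i + 1)
    (n (i + 1) - δ)) := rfl
  omega

/-- One type. `n` is nested, total, of measure `M + 1`, and `C` is a chain of type `n`; `Q` is such
that `evA C Q` vanishes after the identification of marks. Then `XQ w (ep 1) n Q` is the sum of an
element of `UN` with vanishing diagonal coefficient and of an element of the space of nested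
sequences of measure at most `M`.
Proof: `Q' = Q - th Q`; `XQ Q' ∈ UU w (ep 1) m n ≤ UN` (`XQ_mem`; `seqOK m 1 n` because `n = seqT D 1`
would have measure `0`), and `(XQ Q').coeff (ind univ) = 0` by `coeff_XQ` and `th_fb`. By `th_C`,
`evA C (th Q) = kp ι (evA C Q) = 0`, so `(XQ (th Q), 0) ∈ ∏ Gr` by `XQ_mem_Gr`; apply
`chain m (ep 1) n C` with `T = ⨆ n', ⨆ _ : seqM D m M n', UU w (ep 1) m n'`: `move n i δ` is `tot`
(`tot_update`) of measure `< meas m n` (`meas_update`), so `strAll`. -/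
theorem zd_type {m M : ℕ} (hm : 1 ≤ m) {n : ℕ → D.I → ℕ} (hn : seqM D m (M + 1) n)
    (hM : meas m n = M + 1) {C : ℕ → Finset (B D)} (hC : ∀ j, C (j + 1) ⊆ C j)
    (ht : ∀ j, typ D (C j) = n j) {ι : B D → B D} {g₀ : B D → Fin m} (hio : Io C ι g₀)
    {Q : PP D Z m} (h : kp D Z ι (evA D Z (fun t : Fin m => C t) Q) = 0) :
    ∃ Y ∈ UN w m, Y.coeff (ind D Finset.univ) = 0 ∧
      XQ w (ep 1) n Q - Y ∈ ⨆ n' : ℕ → D.I → ℕ, ⨆ _ : seqM D m M n', UU w (ep 1) m n' := by
  classical
  refine ⟨XQ w (ep 1) n (Q - th D Z m Q), ?_, ?_, ?_⟩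
  · have hok : seqOK m 1 n := by
      refine ⟨hn.1.1, by rw [one_smul]; exact hn.1.2, fun he => ?_⟩
      rw [he, ZDstep_meas_seqT] at hM
      omega
    exact (le_iSup₂_of_le (f := fun (n : ℕ → D.I → ℕ) (_ : seqOK m 1 n) => UU w (ep 1) m n)
      n hok le_rfl) (XQ_mem w (ep 1) hm n _)
  · rw [coeff_XQ]
    refine Finset.sum_eq_zero fun g _ => ?_
    split_ifs
    · rw [map_sub, th_fb, sub_self, zero_mul]
    · rfl
  · rw [XQ_sub, sub_sub_cancel]
    have h1 : evA D Z (fun t : Fin m => C t) (th D Z m Q) = 0 := by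
      rw [← th_C hC hio, h]
    have h2 := XQ_mem_Gr w (ep 1) hm n C (fun j _ => ht j) (th D Z m Q)
    rw [h1, zero_mul] at h2
    refine chain w m (ep 1) n C (fun j => ?_) (fun j _ => hC j) (fun j _ => ht j) _ ?_ _ h2
    · unfold ep
      split_ifs <;> omega
    · intro i δ hi hδ hle
      obtain ⟨h3, h4⟩ := ZDstep_move hn.1 hM i hi δ hδ hle
      refine (strAll w _ h3).trans ?_
      refine iSup_mono fun n' => iSup_mono' fun h' => ⟨⟨h'.1, h'.2.1, h'.2.2.trans h4⟩, le_rfl⟩

/-- Elements of the sum as finite sums: there are only finitely many total sequences.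
Proof: a `⨆` of submodules over a predicate; an element is a finite sum of elements of the
`UU w (ep 1) m n`, `seqM D m M n` (`Submodule.mem_iSup_iff_exists_finsupp` or
`Submodule.iSup_induction`); by `exists_XQ` each is an `XQ`; group equal `n` by `XQ_add`. -/
theorem exists_sum {m M : ℕ} {X : AddMonoidAlgebra (S D Z) (B D → ℤ)}
    (hX : X ∈ ⨆ n : ℕ → D.I → ℕ, ⨆ _ : seqM D m M n, UU w (ep 1) m n) :
    ∃ (s : Finset (ℕ → D.I → ℕ)) (Q : (ℕ → D.I → ℕ) → PP D Z m), (∀ n ∈ s, seqM D m M n) ∧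
      X = ∑ n ∈ s, XQ w (ep 1) n (Q n) := by
  classical
  rw [Submodule.mem_iSup_iff_exists_finsupp] at hX
  obtain ⟨f, hf, hs⟩ := hX
  have h1 : ∀ n ∈ f.support, seqM D m M n := by
    intro n hn
    by_contra h
    have h2 := hf n
    rw [iSup_neg h, Submodule.mem_bot] at h2
    exact Finsupp.mem_support_iff.1 hn h2
  have h2 : ∀ n, ∃ Q : PP D Z m, n ∈ f.support → f n = XQ w (ep 1) n Q := by
    intro n
    by_cases hn : n ∈ f.support
    · have h3 := hf n
      rw [iSup_pos (h1 n hn)] at h3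
      obtain ⟨Q, hQ⟩ := exists_XQ w (ep 1) m n h3
      exact ⟨Q, fun _ => hQ⟩
    · exact ⟨0, fun h => absurd h hn⟩
  choose Q hQ using h2
  refine ⟨f.support, Q, h1, ?_⟩
  rw [← hs]
  exact Finset.sum_congr rfl fun n hn => hQ n hn

end Vale.Agent.P291.H.M
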